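import Vale.Agent.P359.Laughlin

/-!
# P359: averaging the energy over all one-body excitations of the Laughlin vector
-/

namespace Vale.Agent.P359

open Matrix P361

noncomputable section

variable {N Q d : ℕ}

/-- The squared norm. -/
def nsq {ι : Type} [Fintype ι] (φ : ι → ℂ) : ℝ := ∑ σ, ‖φ σ‖ ^ 2

/-- The one-body excitation `c_a⁺ c_b`. -/
def excite (a b : Fin d) (ψ : (Fin N → Fin d) → ℂ) (σ : Fin N → Fin d) : ℂ :=
  ∑ i, if σ i = a then ψ (Function.update σ i b) else 0

lemma update_comp_perm (σ : Fin N → Fin d) (e : Equiv.Perm (Fin N)) (i : Fin N) (b : Fin d) :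
    Function.update (σ ∘ e) i b = Function.update σ (e i) b ∘ e := by
  funext j
  by_cases h : j = i
  · subst h; simp
  · simp [Function.update_of_ne h, Function.update_of_ne (e.injective.ne h)]

lemma excite_antisymm {ψ : (Fin N → Fin d) → ℂ} (hψ : Antisymm ψ) (a b : Fin d) :
    Antisymm (excite a b ψ) := by
  intro e σ
  rw [excite, excite, Finset.mul_sum,
    ← Equiv.sum_comp e fun i => ((Equiv.Perm.sign e : ℤ) : ℂ) *
      if σ i = a then ψ (Function.update σ i b) else 0]
  refine Finset.sum_congr rfl fun i _ => ?_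
  rw [update_comp_perm, hψ e, mul_ite, mul_zero]
  rfl

lemma antisymm_zero {ψ : (Fin N → Fin d) → ℂ} (hψ : Antisymm ψ) {σ : Fin N → Fin d}
    (h : ¬Function.Injective σ) : ψ σ = 0 := by
  obtain ⟨i, j, hij, hne⟩ : ∃ i j, σ i = σ j ∧ i ≠ j := by
    simpa [Function.Injective] using h
  have e : σ ∘ Equiv.swap i j = σ := by
    funext k
    rcases eq_or_ne k i with rfl | h1
    · simp [hij]
    rcases eq_or_ne k j with rfl | h2
    · simp [hij]
    · simp [Equiv.swap_apply_of_ne_of_ne h1 h2]
  have := hψ (Equiv.swap i j) σ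
  rw [e, Equiv.Perm.sign_swap hne] at this
  simp at this
  linear_combination this / 2

lemma antisymm_slice {ψ : (Fin N → Fin d) → ℂ} (hψ : Antisymm ψ) {p q : Fin N} (hpq : p ≠ q)
    (σ : Fin N → Fin d) (a b : Fin d) : slice p q ψ σ ![a, b] = -slice p q ψ σ ![b, a] := by
  have e : Function.update (Function.update σ p b) q a ∘ Equiv.swap p q
      = Function.update (Function.update σ p a) q b := by
    funext k
    rcases eq_or_ne k p with rfl | h1
    · simp [hpq]
    rcases eq_or_ne k q with rfl | h2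
    · simp [hpq]
    · simp [Equiv.swap_apply_of_ne_of_ne h1 h2, Function.update_of_ne h1, Function.update_of_ne h2]
  have := hψ (Equiv.swap p q) (Function.update (Function.update σ p b) q a)
  rw [e, Equiv.Perm.sign_swap hpq] at this
  simpa [slice] using this

/-- Averaging over slices. -/
lemma sum_slices {M : Type} [AddCommMonoid M] {p q : Fin N} (hpq : p ≠ q)
    (F : (Fin N → Fin d) → (Fin 2 → Fin d) → M) :
    ∑ σ, ∑ τ : Fin 2 → Fin d, F σ τ = ∑ σ, ∑ τ : Fin 2 → Fin d,
      F (Function.update (Function.update σ p (τ 0)) q (τ 1)) ![σ p, σ q] := by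
  rw [← Fintype.sum_prod_type', ← Fintype.sum_prod_type']
  let f : (Fin N → Fin d) × (Fin 2 → Fin d) → (Fin N → Fin d) × (Fin 2 → Fin d) :=
    fun x => (Function.update (Function.update x.1 p (x.2 0)) q (x.2 1), ![x.1 p, x.1 q])
  have hf : Function.Involutive f := by
    rintro ⟨σ, τ⟩
    refine Prod.ext (funext fun k => ?_) (funext fun i => ?_)
    · rcases eq_or_ne k q with rfl | h2
      · simp [f]
      rcases eq_or_ne k p with rfl | h1
      · simp [f, h2]
      · simp [f, Function.update_of_ne h1, Function.update_of_ne h2]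
    · fin_cases i <;> simp [f, hpq]
  exact (Equiv.sum_comp (hf.toPerm f) fun x => F x.1 x.2).symm

lemma upd2 {p q : Fin N} (hpq : p ≠ q) (σ : Fin N → Fin d) (u v x y : Fin d) :
    Function.update (Function.update (Function.update (Function.update σ p u) q v) p x) q y
      = Function.update (Function.update σ p x) q y := by
  funext k
  simp only [Function.update_apply]
  split_ifs <;> simp_all

lemma upd3 {p q : Fin N} (hpq : p ≠ q) (σ : Fin N → Fin d) (x y b : Fin d) :
    Function.update (Function.update (Function.update σ p x) q y) p b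
      = Function.update (Function.update σ p b) q y := by
  funext k
  simp only [Function.update_apply]
  split_ifs <;> simp_all

lemma upd4 {p q i : Fin N} (hp : i ≠ p) (hq : i ≠ q) (σ : Fin N → Fin d) (x y b : Fin d) :
    Function.update (Function.update (Function.update σ p x) q y) i b
      = Function.update (Function.update (Function.update σ i b) p x) q y := by
  funext k
  simp only [Function.update_apply]
  split_ifs <;> simp_all

lemma slice_update {p q : Fin N} (hpq : p ≠ q) (ψ : (Fin N → Fin d) → ℂ) (σ : Fin N → Fin d)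
    (u v : Fin d) : slice p q ψ (Function.update (Function.update σ p u) q v) = slice p q ψ σ := by
  funext τ
  rw [slice, slice, upd2 hpq]

lemma pairOp_mulVec {p q : Fin N} (hpq : p ≠ q) (A : Matrix (Fin 2 → Fin d) (Fin 2 → Fin d) ℂ)
    (ψ : (Fin N → Fin d) → ℂ) (σ : Fin N → Fin d) :
    (pairOp p q A *ᵥ ψ) σ = (A *ᵥ slice p q ψ σ) ![σ p, σ q] := by
  simp only [mulVec, dotProduct, pairOp, ite_mul, zero_mul]
  rw [← Finset.sum_filter]
  refine Finset.sum_bij' (fun τ _ => ![τ p, τ q])
    (fun w _ => Function.update (Function.update σ p (w 0)) q (w 1))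
    (fun _ _ => Finset.mem_univ _) (fun w _ => ?_) (fun τ hτ => ?_) (fun w _ => ?_) (fun τ hτ => ?_)
  · simp only [Finset.mem_filter, Finset.mem_univ, true_and]
    intro k h1 h2
    simp [Function.update_of_ne h1, Function.update_of_ne h2]
  · funext k
    simp only [Finset.mem_filter, Finset.mem_univ, true_and] at hτ
    rcases eq_or_ne k q with rfl | h2
    · simp
    rcases eq_or_ne k p with rfl | h1
    · simp [h2]
    · simp [Function.update_of_ne h1, Function.update_of_ne h2, hτ k h1 h2]
  · funext i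
    fin_cases i <;> simp [hpq]
  · simp only [Finset.mem_filter, Finset.mem_univ, true_and] at hτ
    have e : Function.update (Function.update σ p (τ p)) q (τ q) = τ := by
      funext k
      rcases eq_or_ne k q with rfl | h2
      · simp
      rcases eq_or_ne k p with rfl | h1
      · simp [h2]
      · simp [Function.update_of_ne h1, Function.update_of_ne h2, hτ k h1 h2]
    simp [slice, e]

/-- The energy of two particles. -/
def epair (s : (Fin 2 → Fin (Q + 1)) → ℂ) : ℝ := (star s ⬝ᵥ (pairProj Q *ᵥ s)).re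

lemma epair_nonneg (s : (Fin 2 → Fin (Q + 1)) → ℂ) : 0 ≤ epair s := by
  have h : star (pairProj Q *ᵥ s) = star s ᵥ* pairProj Q := by
    rw [star_mulVec, ← star_eq_conjTranspose, pairProj_star]
  rw [epair, dotProduct_mulVec, ← h, ← proj_dot s, dotProduct, Complex.re_sum]
  refine Finset.sum_nonneg fun τ _ => ?_
  simp only [Pi.star_apply, Complex.star_def, mul_comm _ ((pairProj Q *ᵥ s) τ), Complex.mul_conj]
  exact Complex.normSq_nonneg _

/-- The energy of a state as a sum over slices. -/
lemma energy_eq (φ : (Fin N → Fin (Q + 1)) → ℂ) :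
    ((Q : ℝ) + 1) ^ 2 * (star φ ⬝ᵥ (hamiltonian N Q *ᵥ φ)).re
      = ∑ p : Fin N, ∑ q : Fin N, if p < q then ∑ σ, epair (slice p q φ σ) else 0 := by
  simp only [hamiltonian, Matrix.sum_mulVec, dotProduct_sum, Complex.re_sum, Finset.mul_sum]
  refine Finset.sum_congr rfl fun p _ => Finset.sum_congr rfl fun q _ => ?_
  split_ifs with h
  swap
  · simp
  have key := sum_slices (M := ℝ) h.ne
    fun σ (τ : Fin 2 → Fin (Q + 1)) => (star (φ σ) * (pairOp p q (pairProj Q) *ᵥ φ) σ).re
  simp only [Finset.sum_const, Finset.card_univ, Fintype.card_fun, Fintype.card_fin,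
    nsmul_eq_mul] at key
  rw [← Finset.mul_sum] at key
  push_cast at key
  rw [dotProduct, Complex.re_sum]
  refine key.trans (Finset.sum_congr rfl fun σ _ => ?_)
  rw [epair, dotProduct, Complex.re_sum]
  refine Finset.sum_congr rfl fun τ _ => ?_
  rw [pairOp_mulVec h.ne, slice_update h.ne]
  have e : (![Function.update (Function.update σ p (τ 0)) q (τ 1) p,
      Function.update (Function.update σ p (τ 0)) q (τ 1) q] : Fin 2 → Fin (Q + 1)) = τ := by
    funext i; fin_cases i <;> simp [h.ne]
  rw [e]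
  rfl

/-- The two terms of an excitation which act on the pair. -/
def pairExcite (a b : Fin d) (s : (Fin 2 → Fin d) → ℂ) (τ : Fin 2 → Fin d) : ℂ :=
  (if τ 0 = a then s ![b, τ 1] else 0) + if τ 1 = a then s ![τ 0, b] else 0

lemma proj_slice_excite {p q : Fin N} (hpq : p ≠ q) {ψ : (Fin N → Fin (Q + 1)) → ℂ}
    (hk : ∀ σ, pairProj Q *ᵥ slice p q ψ σ = 0) (a b : Fin (Q + 1)) (σ : Fin N → Fin (Q + 1)) :
    pairProj Q *ᵥ slice p q (excite a b ψ) σ
      = pairProj Q *ᵥ pairExcite a b (slice p q ψ σ) := by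
  have e : slice p q (excite a b ψ) σ = pairExcite a b (slice p q ψ σ)
      + ∑ i ∈ (Finset.univ.erase q).erase p,
        (if σ i = a then (1 : ℂ) else 0) • slice p q ψ (Function.update σ i b) := by
    funext τ
    simp only [slice, excite, Pi.add_apply, Finset.sum_apply, Pi.smul_apply, smul_eq_mul, ite_mul,
      one_mul, zero_mul, pairExcite, Matrix.cons_val_zero, Matrix.cons_val_one]
    rw [← Finset.add_sum_erase _ _ (Finset.mem_univ q),
      ← Finset.add_sum_erase _ _ (Finset.mem_erase.2 ⟨hpq, Finset.mem_univ p⟩)]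
    simp only [Function.update_self, Function.update_idem, Function.update_of_ne hpq]
    rw [upd3 hpq, Finset.sum_congr rfl fun i hi => by
      simp only [Finset.mem_erase] at hi
      rw [Function.update_of_ne hi.2.1, Function.update_of_ne hi.1, upd4 hi.1 hi.2.1]]
    ring
  rw [e, mulVec_add, Matrix.mulVec_sum, Finset.sum_eq_zero, add_zero]
  exact fun i _ => by rw [mulVec_smul, hk, smul_zero]

lemma epair_congr {s t : (Fin 2 → Fin (Q + 1)) → ℂ} (h : pairProj Q *ᵥ s = pairProj Q *ᵥ t) :
    epair s = epair t := by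
  have e : ∀ u : (Fin 2 → Fin (Q + 1)) → ℂ,
      epair u = (star (pairProj Q *ᵥ u) ⬝ᵥ (pairProj Q *ᵥ u)).re := fun u => by
    rw [proj_dot, star_mulVec, ← star_eq_conjTranspose, pairProj_star, ← dotProduct_mulVec, epair]
  rw [e, e, h]

lemma epair_pairExcite (hQ : 2 ≤ Q) {κ : ℝ}
    (hκ : ∀ k l, ptrace Q k l = if k = l then (κ : ℂ) else 0)
    {s : (Fin 2 → Fin (Q + 1)) → ℂ} (hs : ∀ a b, s ![a, b] = -s ![b, a]) :
    ∑ a, ∑ b, epair (pairExcite a b s) = 4 * κ * nsq s := by
  have he : ∀ k l : Fin (Q + 1), (finTwoArrowEquiv (Fin (Q + 1))).symm (k, l) = ![k, l] :=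
    fun _ _ => rfl
  set v : Fin (Q + 1) → Fin (Q + 1) → (Fin 2 → Fin (Q + 1)) → ℂ :=
    fun a b τ => if τ 0 = a then s ![b, τ 1] else 0
  have hP : ∀ a b, pairProj Q *ᵥ pairExcite a b s = (2 : ℂ) • (pairProj Q *ᵥ v a b) := by
    intro a b
    funext τ'
    simp only [mulVec, dotProduct, pairExcite, v, Pi.smul_apply, smul_eq_mul, mul_add,
      Finset.sum_add_distrib, two_mul]
    congr 1
    rw [← (finTwoArrowEquiv (Fin (Q + 1))).symm.sum_comp, Fintype.sum_prod_type,
      ← (finTwoArrowEquiv (Fin (Q + 1))).symm.sum_comp, Fintype.sum_prod_type, Finset.sum_comm]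
    refine Finset.sum_congr rfl fun k _ => Finset.sum_congr rfl fun l _ => ?_
    simp only [he, Matrix.cons_val_zero, Matrix.cons_val_one]
    split_ifs
    · rw [← isHermitian_pairProj.apply τ' ![l, k], ← isHermitian_pairProj.apply τ' ![k, l],
        pairProj_swap hQ, hs l b, star_neg]
      ring
    · simp
  have hsum : ∑ a, ∑ b, star (v a b) ⬝ᵥ (pairProj Q *ᵥ v a b) = ((κ * nsq s : ℝ) : ℂ) := by
    have e : ∀ a b, star (v a b) ⬝ᵥ (pairProj Q *ᵥ v a b)
        = ∑ y, ∑ y', star (s ![b, y]) * pairProj Q ![a, y] ![a, y'] * s ![b, y'] := by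
      intro a b
      simp only [mulVec, dotProduct, v, Pi.star_apply, Finset.mul_sum]
      rw [← (finTwoArrowEquiv (Fin (Q + 1))).symm.sum_comp, Fintype.sum_prod_type,
        Finset.sum_eq_single a]
      · refine Finset.sum_congr rfl fun y _ => ?_
        simp only [he, Matrix.cons_val_zero, Matrix.cons_val_one, if_true]
        rw [← (finTwoArrowEquiv (Fin (Q + 1))).symm.sum_comp, Fintype.sum_prod_type,
          Finset.sum_eq_single a]
        · refine Finset.sum_congr rfl fun y' _ => ?_
          simp [he, mul_assoc]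
        · intro k _ hk; simp [he, hk]
        · simp
      · intro k _ hk; simp [he, hk]
      · simp
    simp only [e]
    rw [Finset.sum_comm, nsq, ← (finTwoArrowEquiv (Fin (Q + 1))).symm.sum_comp,
      Fintype.sum_prod_type, Finset.mul_sum, Complex.ofReal_sum]
    refine Finset.sum_congr rfl fun b _ => ?_
    rw [Finset.sum_comm, Finset.mul_sum, Complex.ofReal_sum]
    refine Finset.sum_congr rfl fun y _ => ?_
    rw [Finset.sum_comm]
    simp only [← Finset.sum_mul, ← Finset.mul_sum]
    have hk : ∀ y', ∑ a, pairProj Q ![a, y] ![a, y'] = if y = y' then (κ : ℂ) else 0 :=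
      fun y' => hκ y y'
    simp only [hk, he, mul_ite, ite_mul, mul_zero, zero_mul, Finset.sum_ite_eq, Finset.mem_univ,
      if_true]
    rw [← Complex.normSq_eq_norm_sq, Complex.ofReal_mul, ← Complex.mul_conj, Complex.star_def]
    ring
  have hv : ∀ a b, epair (pairExcite a b s) = 4 * (star (v a b) ⬝ᵥ (pairProj Q *ᵥ v a b)).re := by
    intro a b
    rw [epair_congr (t := (2 : ℂ) • v a b) (by rw [hP, mulVec_smul]), epair, mulVec_smul, star_smul,
      smul_dotProduct, dotProduct_smul, smul_smul, smul_eq_mul, Complex.star_def]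
    simp
    norm_num
  simp only [hv, ← Finset.mul_sum, ← Complex.re_sum, hsum, Complex.ofReal_re]
  ring

lemma sum_nsq_slice {p q : Fin N} (hpq : p ≠ q) (ψ : (Fin N → Fin d) → ℂ) :
    ∑ σ, nsq (slice p q ψ σ) = (d : ℝ) ^ 2 * nsq ψ := by
  have key := sum_slices (M := ℝ) hpq fun σ (_ : Fin 2 → Fin d) => ‖ψ σ‖ ^ 2
  simp only [Finset.sum_const, Finset.card_univ, Fintype.card_fun, Fintype.card_fin,
    nsmul_eq_mul] at key
  rw [← Finset.mul_sum] at key
  push_cast at key
  exact key.symm

/-- Many excitations: a lower bound for their total norm. -/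
lemma nsq_excite {ψ : (Fin N → Fin d) → ℂ} (hψ : Antisymm ψ) (hNd : N ≤ d) :
    (N : ℝ) * ((d : ℝ) - N) * nsq ψ
      ≤ ∑ a, ∑ b, if a ≠ b then nsq (excite a b ψ) else 0 := by
  classical
  let g : (Fin N → Fin d) → Fin N → Fin d → ℝ := fun σ i b =>
    if Function.Injective σ ∧ b ≠ σ i then ‖ψ (Function.update σ i b)‖ ^ 2 else 0
  have h1 : ∀ σ, ∑ i, ∑ b, g σ i b ≤ ∑ a, ∑ b, if a ≠ b then ‖excite a b ψ σ‖ ^ 2 else 0 := by
    intro σ
    by_cases hσ : Function.Injective σ
    · have e : ∀ i b, g σ i b = if σ i ≠ b then ‖excite (σ i) b ψ σ‖ ^ 2 else 0 := by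
        intro i b
        have : excite (σ i) b ψ σ = ψ (Function.update σ i b) := by
          rw [excite, Finset.sum_eq_single i]
          · simp
          · intro j _ hj; rw [if_neg (hσ.ne hj)]
          · simp
        simp [g, hσ, this, ne_comm]
      simp only [e]
      rw [← Finset.sum_image (f := fun a => ∑ b, if a ≠ b then ‖excite a b ψ σ‖ ^ 2 else 0)
        hσ.injOn]
      refine Finset.sum_le_sum_of_subset_of_nonneg (Finset.subset_univ _) fun a _ _ => ?_
      exact Finset.sum_nonneg fun b _ => by split_ifs <;> positivity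
    · simp only [g, hσ, false_and, if_false, Finset.sum_const_zero]
      exact Finset.sum_nonneg fun a _ => Finset.sum_nonneg fun b _ => by split_ifs <;> positivity
  have h2 : ∀ τ : Fin N → Fin d, (N : ℝ) * ((d : ℝ) - N) * ‖ψ τ‖ ^ 2
      ≤ ∑ i, ∑ b, g (Function.update τ i b) i (τ i) := by
    intro τ
    by_cases hτ : Function.Injective τ
    swap
    · rw [antisymm_zero hψ hτ]
      simp only [norm_zero, ne_eq, OfNat.ofNat_ne_zero, not_false_eq_true, zero_pow, mul_zero]
      exact Finset.sum_nonneg fun i _ => Finset.sum_nonneg fun b _ => by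
        simp only [g]; split_ifs <;> positivity
    have hc : ((Finset.univ.image τ)ᶜ).card = d - N := by
      rw [Finset.card_compl, Finset.card_image_of_injective _ hτ]; simp
    have hi : ∀ i, ((d : ℝ) - N) * ‖ψ τ‖ ^ 2 ≤ ∑ b, g (Function.update τ i b) i (τ i) := by
      intro i
      refine le_trans (le_of_eq ?_) (Finset.sum_le_sum_of_subset_of_nonneg
        (Finset.subset_univ ((Finset.univ.image τ)ᶜ)) fun b _ _ => by
          simp only [g]; split_ifs <;> positivity)
      rw [Finset.sum_congr rfl fun b hb => by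
        simp only [Finset.mem_compl, Finset.mem_image, Finset.mem_univ, true_and, not_exists] at hb
        rw [show g (Function.update τ i b) i (τ i) = ‖ψ τ‖ ^ 2 by
          simp only [g, Function.update_self, Function.update_idem, Function.update_eq_self]
          rw [if_pos]
          refine ⟨fun x y hxy => ?_, hb i⟩
          rcases eq_or_ne x i with rfl | hx <;> rcases eq_or_ne y x with rfl | hy
          · rfl
          · simp [Function.update_of_ne hy] at hxy; exact absurd hxy.symm (hb y)
          · rfl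
          · rcases eq_or_ne y i with rfl | hy'
            · simp [Function.update_of_ne hx] at hxy; exact absurd hxy (hb x)
            · simp [Function.update_of_ne hx, Function.update_of_ne hy'] at hxy
              exact absurd (hτ hxy).symm hy]]
      rw [Finset.sum_const, hc, nsmul_eq_mul, Nat.cast_sub hNd]
    calc (N : ℝ) * ((d : ℝ) - N) * ‖ψ τ‖ ^ 2 = ∑ _i : Fin N, ((d : ℝ) - N) * ‖ψ τ‖ ^ 2 := by
          simp; ring
      _ ≤ _ := Finset.sum_le_sum fun i _ => hi i
  have hswap : ∑ σ, ∑ i, ∑ b, g σ i b = ∑ τ, ∑ i, ∑ b, g (Function.update τ i b) i (τ i) := by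
    rw [Finset.sum_comm, Finset.sum_comm (γ := Fin N → Fin d) (f := fun τ i =>
      ∑ b, g (Function.update τ i b) i (τ i))]
    refine Finset.sum_congr rfl fun i _ => ?_
    rw [← Fintype.sum_prod_type', ← Fintype.sum_prod_type']
    let f : (Fin N → Fin d) × Fin d → (Fin N → Fin d) × Fin d :=
      fun x => (Function.update x.1 i x.2, x.1 i)
    have hf : Function.Involutive f := by
      rintro ⟨σ, b⟩
      simp [f]
    exact (Equiv.sum_comp (hf.toPerm f) fun x => g x.1 i x.2).symm
  calc (N : ℝ) * ((d : ℝ) - N) * nsq ψ ≤ ∑ τ, ∑ i, ∑ b, g (Function.update τ i b) i (τ i) := by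
        rw [nsq, Finset.mul_sum]; exact Finset.sum_le_sum fun τ _ => h2 τ
    _ ≤ ∑ σ, ∑ a, ∑ b, if a ≠ b then ‖excite a b ψ σ‖ ^ 2 else 0 := by
        rw [← hswap]; exact Finset.sum_le_sum fun σ _ => h1 σ
    _ = _ := by
        rw [Finset.sum_comm]
        refine Finset.sum_congr rfl fun a _ => ?_
        rw [Finset.sum_comm]
        refine Finset.sum_congr rfl fun b _ => ?_
        split_ifs <;> simp [nsq]

lemma orth_excite {ψ : (Fin N → Fin d) → ℂ} {W : ℕ}
    (hW : ∀ σ, ψ σ ≠ 0 → ∑ i, (σ i : ℕ) = W) {a b : Fin d} (hab : a ≠ b) :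
    star ψ ⬝ᵥ excite a b ψ = 0 := by
  refine Finset.sum_eq_zero fun σ _ => ?_
  by_cases h : ψ σ = 0
  · simp [h]
  rw [excite, Finset.mul_sum]
  refine Finset.sum_eq_zero fun i _ => ?_
  split_ifs with hi
  swap
  · simp
  by_cases h' : ψ (Function.update σ i b) = 0
  · simp [h']
  exfalso
  have e1 := hW σ h
  have e2 := hW _ h'
  rw [← Finset.add_sum_erase _ _ (Finset.mem_univ i)] at e1 e2
  rw [Finset.sum_congr rfl fun j hj => by rw [Function.update_of_ne (Finset.ne_of_mem_erase hj)],
    Function.update_self] at e2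
  exact hab (Fin.ext (by rw [← hi]; omega))

theorem hamiltonian_laughlin (hQ : Q = 3 * (N - 1)) :
    hamiltonian N Q *ᵥ laughlin N Q = 0 := by
  funext σ
  simp only [hamiltonian, Matrix.sum_mulVec, Finset.sum_apply, Pi.zero_apply]
  refine Finset.sum_eq_zero fun p _ => Finset.sum_eq_zero fun q _ => ?_
  split_ifs with h
  · rw [pairOp_mulVec h.ne, kill hQ h σ]; rfl
  · simp

lemma energy_nonneg (φ : (Fin N → Fin (Q + 1)) → ℂ) :
    0 ≤ (star φ ⬝ᵥ (hamiltonian N Q *ᵥ φ)).re := by
  refine nonneg_of_mul_nonneg_right ?_ (show (0 : ℝ) < ((Q : ℝ) + 1) ^ 2 by positivity)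
  rw [energy_eq]
  exact Finset.sum_nonneg fun p _ => Finset.sum_nonneg fun q _ => by
    split_ifs
    exacts [Finset.sum_nonneg fun σ _ => epair_nonneg _, le_rfl]

/-- The gap bound. -/
theorem gap_le (hN : 2 ≤ N) (hQ : Q = 3 * (N - 1)) (δ : ℝ)
    (h : ∀ φ, Antisymm φ → δ * (nsq φ - ‖star (laughlin N Q) ⬝ᵥ φ‖ ^ 2 / nsq (laughlin N Q))
      ≤ (star φ ⬝ᵥ (hamiltonian N Q *ᵥ φ)).re) :
    δ ≤ (2 * (Q : ℝ) - 1) / ((Q : ℝ) + 1) := by
  have hQ2 : 2 ≤ Q := by omega
  obtain ⟨κ, hκ0, hκle, hκ⟩ := ptrace_eq hQ2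
  have hfin : κ ≤ (2 * (Q : ℝ) - 1) / ((Q : ℝ) + 1) := (le_div_iff₀ (by positivity)).2 hκle
  refine le_trans ?_ hfin
  rcases le_or_gt δ 0 with hδ | hδ
  · exact hδ.trans hκ0
  set ψ := laughlin N Q
  have hψ : Antisymm ψ := laughlin_antisymm
  obtain ⟨W, hW⟩ := laughlin_weight (N := N) (Q := Q)
  have hpos : 0 < nsq ψ := by
    obtain ⟨σ, hσ⟩ := Function.ne_iff.1 (laughlin_ne_zero (N := N) (Q := Q) hQ.ge)
    exact lt_of_lt_of_le (pow_pos (norm_pos_iff.2 hσ) 2)
      (Finset.single_le_sum (f := fun σ => ‖ψ σ‖ ^ 2) (fun _ _ => by positivity) (Finset.mem_univ σ))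
  have hnum : ∑ a, ∑ b, (star (excite a b ψ) ⬝ᵥ (hamiltonian N Q *ᵥ excite a b ψ)).re
      = 2 * κ * ((N : ℝ) * ((N : ℝ) - 1)) * nsq ψ := by
    refine mul_left_cancel₀ (show ((Q : ℝ) + 1) ^ 2 ≠ 0 by positivity) ?_
    simp only [Finset.mul_sum, energy_eq]
    rw [Finset.sum_comm]
    calc ∑ b, ∑ a, ∑ p : Fin N, ∑ q : Fin N,
          (if p < q then ∑ σ, epair (slice p q (excite a b ψ) σ) else 0)
        = ∑ p : Fin N, ∑ q : Fin N, if p < q then
            4 * κ * (((Q : ℝ) + 1) ^ 2 * nsq ψ) else 0 := by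
          rw [Finset.sum_comm, Finset.sum_congr rfl fun a _ => Finset.sum_comm, Finset.sum_comm]
          refine Finset.sum_congr rfl fun p _ => ?_
          rw [Finset.sum_congr rfl fun a _ => Finset.sum_comm, Finset.sum_comm]
          refine Finset.sum_congr rfl fun q _ => ?_
          split_ifs with hpq
          swap
          · simp
          rw [Finset.sum_congr rfl fun a _ => Finset.sum_comm, Finset.sum_comm]
          rw [show ((Q : ℝ) + 1) = ((Q + 1 : ℕ) : ℝ) by push_cast; rfl, ← sum_nsq_slice hpq.ne ψ,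
            Finset.mul_sum]
          refine Finset.sum_congr rfl fun σ _ => ?_
          rw [← epair_pairExcite hQ2 hκ (antisymm_slice hψ hpq.ne σ)]
          refine Finset.sum_congr rfl fun a _ => Finset.sum_congr rfl fun b _ => ?_
          exact epair_congr (proj_slice_excite hpq.ne (kill hQ hpq) a b σ)
      _ = _ := by
          have hc : ((Finset.univ.filter fun x : Fin N × Fin N => x.1 < x.2).card : ℝ)
              = (N : ℝ) * ((N : ℝ) - 1) / 2 := by
            have h1 : (Finset.univ.filter fun x : Fin N × Fin N => x.1 < x.2).card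
                = ∑ q : Fin N, (q : ℕ) := by
              rw [Finset.card_filter, Fintype.sum_prod_type, Finset.sum_comm]
              refine Finset.sum_congr rfl fun q _ => ?_
              simp only
              rw [← Finset.card_filter]
              exact (congrArg Finset.card (by ext; simp)).trans (Fin.card_Iio q)
            have h2 := Finset.sum_range_id_mul_two N
            rw [← Fin.sum_univ_eq_sum_range, ← h1] at h2
            have h3 := congrArg (fun n : ℕ => (n : ℝ)) h2
            push_cast [Nat.cast_sub (show 1 ≤ N by omega)] at h3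
            linarith
          have key : ∀ c : ℝ, (∑ p : Fin N, ∑ q : Fin N, if p < q then c else 0)
              = ((Finset.univ.filter fun x : Fin N × Fin N => x.1 < x.2).card : ℝ) * c := by
            intro c
            rw [← Fintype.sum_prod_type', ← Finset.sum_filter]
            simp
          rw [key, hc]
          ring
  have hden := nsq_excite hψ (show N ≤ Q + 1 by omega)
  have hineq : δ * ∑ a, ∑ b, (if a ≠ b then nsq (excite a b ψ) else 0)
      ≤ ∑ a, ∑ b, (star (excite a b ψ) ⬝ᵥ (hamiltonian N Q *ᵥ excite a b ψ)).re := by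
    simp only [Finset.mul_sum]
    refine Finset.sum_le_sum fun a _ => Finset.sum_le_sum fun b _ => ?_
    split_ifs with hab
    · have := h _ (excite_antisymm hψ a b)
      rw [orth_excite hW hab] at this
      simpa using this
    · simpa using energy_nonneg _
  rw [hnum] at hineq
  have hq : (Q : ℝ) = 3 * ((N : ℝ) - 1) := by
    rw [hQ]; push_cast [Nat.cast_sub (show 1 ≤ N by omega)]; ring
  have h1 := (mul_le_mul_of_nonneg_left hden hδ.le).trans hineq
  have hn : (1 : ℝ) ≤ (N : ℝ) - 1 := by
    have : (2 : ℝ) ≤ N := by exact_mod_cast hN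
    linarith
  push_cast at h1
  rw [hq] at h1
  refine le_of_mul_le_mul_left ?_
    (show 0 < 2 * ((N : ℝ) * ((N : ℝ) - 1)) * nsq ψ by positivity)
  linarith

end

end Vale.Agent.P359
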