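import Vale.Agent.P359.Defs

/-!
# P359: the Casimir operator of two spins on weight coefficients

In the coefficients `c (k, l) = φ (k, l) / √(binom Q k * binom Q l)` the Casimir has nonnegative
entries with row sum `q (q + 1)` and intertwines with the difference operator `diff`.
-/

namespace Vale.Agent.P359

noncomputable section

/-- The Casimir on coefficients. -/
def cop (q : ℝ) (c : ℕ → ℕ → ℂ) (k l : ℕ) : ℂ :=
  ((q * (q + 2) / 2 + 2 * (q / 2 - k) * (q / 2 - l) : ℝ) : ℂ) * c k l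
    + (((q - k) * l : ℝ) : ℂ) * c (k + 1) (l - 1) + ((k * (q - l) : ℝ) : ℂ) * c (k - 1) (l + 1)

/-- The difference along antidiagonals. -/
def diff (c : ℕ → ℕ → ℂ) (k l : ℕ) : ℂ := c (k + 1) l - c k (l + 1)

/-- An eigenvector of the Casimir on the square. -/
def IsEigen (Q : ℕ) (e : ℝ) (c : ℕ → ℕ → ℂ) : Prop :=
  ∀ k l, k ≤ Q → l ≤ Q → cop Q c k l = (e : ℂ) * c k l

lemma diff_cop (q : ℝ) (c : ℕ → ℕ → ℂ) (k l : ℕ) :
    diff (cop q c) k l = cop (q - 1) (diff c) k l := by
  rcases k with _ | k <;> rcases l with _ | l <;> simp [cop, diff] <;> ring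

lemma IsEigen.diff {Q : ℕ} {e : ℝ} {c : ℕ → ℕ → ℂ} (h : IsEigen (Q + 1) e c) :
    IsEigen Q e (diff c) := by
  intro k l hk hl
  have := diff_cop ((Q + 1 : ℕ) : ℝ) c k l
  rw [show ((Q + 1 : ℕ) : ℝ) - 1 = Q by push_cast; ring] at this
  rw [← this, P359.diff, h _ _ (by omega) (by omega), h _ _ (by omega) (by omega), P359.diff]
  ring

/-- An eigenvalue above the row sum has no eigenvector. -/
theorem eigen_zero {Q : ℕ} {e : ℝ} {c : ℕ → ℕ → ℂ} (h : IsEigen Q e c)
    (he : (Q : ℝ) * (Q + 1) < e) {k l : ℕ} (hk : k ≤ Q) (hl : l ≤ Q) : c k l = 0 := by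
  obtain ⟨⟨a, b⟩, hab, hmax⟩ := (Finset.range (Q + 1) ×ˢ Finset.range (Q + 1)).exists_max_image
    (fun p => ‖c p.1 p.2‖) (by simp)
  simp only [Finset.mem_product, Finset.mem_range] at hab hmax
  have ha : (a : ℝ) ≤ Q := by exact_mod_cast Nat.lt_succ_iff.1 hab.1
  have hb : (b : ℝ) ≤ Q := by exact_mod_cast Nat.lt_succ_iff.1 hab.2
  set M := ‖c a b‖
  have d0 : (0 : ℝ) ≤ Q * (Q + 2) / 2 + 2 * (Q / 2 - a) * (Q / 2 - b) := by
    nlinarith [mul_nonneg (sub_nonneg.2 ha) (sub_nonneg.2 hb), Nat.cast_nonneg (α := ℝ) a,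
      Nat.cast_nonneg (α := ℝ) b, mul_nonneg (Nat.cast_nonneg (α := ℝ) a) (Nat.cast_nonneg (α := ℝ) b)]
  have w1 : (0 : ℝ) ≤ ((Q : ℝ) - a) * b := mul_nonneg (sub_nonneg.2 ha) (Nat.cast_nonneg b)
  have w2 : (0 : ℝ) ≤ a * ((Q : ℝ) - b) := mul_nonneg (Nat.cast_nonneg a) (sub_nonneg.2 hb)
  have hbound : ∀ (w : ℝ) (x y : ℕ), 0 ≤ w → (w = 0 ∨ (x ≤ Q ∧ y ≤ Q)) →
      ‖(w : ℂ) * c x y‖ ≤ w * M := by
    intro w x y hw h'
    rw [norm_mul, Complex.norm_real, Real.norm_of_nonneg hw]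
    rcases h' with rfl | ⟨hx, hy⟩
    · simp
    · exact mul_le_mul_of_nonneg_left (hmax (x, y) ⟨by omega, by omega⟩) hw
  have key := congrArg norm (h a b (by omega) (by omega))
  rw [norm_mul, Complex.norm_real, Real.norm_of_nonneg (by nlinarith : 0 ≤ e), cop] at key
  have hle := (norm_add₃_le).trans (add_le_add_three
    (hbound _ a b d0 (Or.inr ⟨by omega, by omega⟩))
    (hbound _ (a + 1) (b - 1) w1 (by
      rcases Nat.lt_or_ge a Q with h' | h'
      · exact Or.inr ⟨h', by omega⟩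
      · exact Or.inl (by rw [show (a : ℝ) = Q from le_antisymm ha (by exact_mod_cast h')]; simp)))
    (hbound _ (a - 1) (b + 1) w2 (by
      rcases Nat.lt_or_ge b Q with h' | h'
      · exact Or.inr ⟨by omega, h'⟩
      · exact Or.inl (by rw [show (b : ℝ) = Q from le_antisymm hb (by exact_mod_cast h')]; simp))))
  rw [key] at hle
  have hM : M ≤ 0 := by nlinarith [norm_nonneg (c a b)]
  exact norm_le_zero_iff.1 ((hmax (k, l) ⟨by omega, by omega⟩).trans hM)

variable {Q : ℕ} {c : ℕ → ℕ → ℂ}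

/-- In the top component the third difference vanishes. -/
theorem diff3_zero (h : IsEigen (Q + 3) (((Q : ℝ) + 3) * ((Q : ℝ) + 2)) c) {k l : ℕ}
    (hk : k ≤ Q) (hl : l ≤ Q) : diff (diff (diff c)) k l = 0 :=
  eigen_zero h.diff.diff.diff (by nlinarith [Nat.cast_nonneg (α := ℝ) Q]) hk hl

/-- In the top component the second difference vanishes. -/
theorem diff2_zero (h : IsEigen (Q + 2) (((Q : ℝ) + 2) * ((Q : ℝ) + 1)) c) {k l : ℕ}
    (hk : k ≤ Q) (hl : l ≤ Q) : diff (diff c) k l = 0 :=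
  eigen_zero h.diff.diff (by nlinarith [Nat.cast_nonneg (α := ℝ) Q]) hk hl

/-- A function with vanishing difference is constant on antidiagonals. -/
theorem const_antidiag {M : ℕ} (h : ∀ k l, k < M → l < M → diff c k l = 0) {k l k' l' : ℕ}
    (hk : k ≤ M) (hl : l ≤ M) (hk' : k' ≤ M) (hl' : l' ≤ M) (e : k + l = k' + l') :
    c k l = c k' l' := by
  rcases le_or_gt k k' with hle | hle
  · obtain ⟨n, rfl⟩ := Nat.exists_eq_add_of_le hle
    induction n generalizing l' with
    | zero => rw [add_zero] at e ⊢; rw [show l = l' by omega]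
    | succ n ih =>
      have h' := h (k + n) l' (by omega) (by omega)
      rw [P359.diff, sub_eq_zero] at h'
      rw [← add_assoc, h', ← ih (by omega) (by omega) (by omega) (by omega)]
  · obtain ⟨n, rfl⟩ := Nat.exists_eq_add_of_le hle.le
    clear hle
    induction n generalizing l with
    | zero => rw [add_zero] at e ⊢; rw [show l = l' by omega]
    | succ n ih =>
      have h' := h (k' + n) l (by omega) (by omega)
      rw [P359.diff, sub_eq_zero] at h'
      rw [← add_assoc, h', ih (by omega) (by omega) (by omega)]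

/-- Values of a representative of every antidiagonal. -/
def reps (Q : ℕ) (c : ℕ → ℕ → ℂ) (m : Fin (2 * Q - 1)) : ℂ :=
  diff c (min (m : ℕ) (Q - 1)) ((m : ℕ) - min (m : ℕ) (Q - 1))

/-- A coefficient function constant on antidiagonals is not in the top component. -/
theorem zero_of_diff_zero (hQ : 2 ≤ Q) (h : IsEigen Q ((Q : ℝ) * ((Q : ℝ) - 1)) c)
    (hd : ∀ k l, k < Q → l < Q → diff c k l = 0) {k l : ℕ} (hk : k ≤ Q) (hl : l ≤ Q) :
    c k l = 0 := by
  have hr := h k l hk hl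
  rw [cop] at hr
  have e1 : (((Q : ℝ) - k) * l : ℝ) • c (k + 1) (l - 1) = (((Q : ℝ) - k) * l : ℝ) • c k l := by
    rcases Nat.eq_zero_or_pos l with rfl | hl0
    · simp
    rcases Nat.lt_or_ge k Q with hk0 | hk0
    · rw [const_antidiag hd (by omega) (by omega) hk hl (by omega)]
    · rw [show k = Q by omega]; simp
  have e2 : ((k : ℝ) * ((Q : ℝ) - l) : ℝ) • c (k - 1) (l + 1) =
      ((k : ℝ) * ((Q : ℝ) - l) : ℝ) • c k l := by
    rcases Nat.eq_zero_or_pos k with rfl | hk0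
    · simp
    rcases Nat.lt_or_ge l Q with hl0 | hl0
    · rw [const_antidiag hd (by omega) (by omega) hk hl (by omega)]
    · rw [show l = Q by omega]; simp
  simp only [Complex.real_smul] at e1 e2
  rw [e1, e2] at hr
  have : ((2 * Q : ℝ) : ℂ) * c k l = 0 := by push_cast at hr ⊢; linear_combination hr
  refine (mul_eq_zero.1 this).resolve_left ?_
  exact_mod_cast (show (2 * Q : ℝ) ≠ 0 by positivity)

/-- The representatives determine the function. -/
theorem zero_of_reps (hQ : 2 ≤ Q) (h : IsEigen Q ((Q : ℝ) * ((Q : ℝ) - 1)) c)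
    (hr : reps Q c = 0) {k l : ℕ} (hk : k ≤ Q) (hl : l ≤ Q) : c k l = 0 := by
  refine zero_of_diff_zero hQ h (fun a b ha hb => ?_) hk hl
  obtain ⟨n, rfl⟩ : ∃ n, Q = n + 2 := ⟨Q - 2, by omega⟩
  have e : (((n + 2 : ℕ) : ℝ) * (((n + 2 : ℕ) : ℝ) - 1)) = ((n : ℝ) + 2) * ((n : ℝ) + 1) := by
    push_cast; ring
  rw [e] at h
  have hh := const_antidiag (c := diff c) (M := n + 1)
    (fun a b ha hb => diff2_zero h (by omega) (by omega)) (k := a) (l := b)
    (k' := min (a + b) (n + 1)) (l' := a + b - min (a + b) (n + 1))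
    (by omega) (by omega) (by omega) (by omega) (by omega)
  rw [hh]
  simpa [reps] using congrFun hr ⟨a + b, by omega⟩

/-- Symmetric functions are not in the top component. -/
theorem zero_of_symm (hQ : 2 ≤ Q) (h : IsEigen Q ((Q : ℝ) * ((Q : ℝ) - 1)) c)
    (hs : ∀ k l, c k l = c l k) {k l : ℕ} (hk : k ≤ Q) (hl : l ≤ Q) : c k l = 0 := by
  refine zero_of_diff_zero hQ h (fun a b ha hb => ?_) hk hl
  obtain ⟨n, rfl⟩ : ∃ n, Q = n + 2 := ⟨Q - 2, by omega⟩
  have e : (((n + 2 : ℕ) : ℝ) * (((n + 2 : ℕ) : ℝ) - 1)) = ((n : ℝ) + 2) * ((n : ℝ) + 1) := by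
    push_cast; ring
  rw [e] at h
  have hh := const_antidiag (c := diff c) (M := n + 1)
    (fun a b ha hb => diff2_zero h (by omega) (by omega)) (k := a) (l := b) (k' := b) (l' := a)
    (by omega) (by omega) (by omega) (by omega) (by omega)
  have hneg : diff c b a = -diff c a b := by
    rw [P359.diff, P359.diff, hs (b + 1) a, hs b (a + 1)]; ring
  rw [hneg] at hh
  linear_combination hh / 2

end

end Vale.Agent.P359
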