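import Vale.Agent.P361.Defs
import Mathlib.Analysis.InnerProductSpace.Projection.Basic
import Mathlib.Analysis.InnerProductSpace.PiL2
import Mathlib.LinearAlgebra.Eigenspace.Basic
import Mathlib.Algebra.MvPolynomial.CommRing

/-!
# P359: the pseudopotential Hamiltonian on the sphere

States of `N` particles are functions on `Fin N → Fin (Q + 1)`, the weight basis of each factor;
index `k` is the normalised monomial `u ^ (Q - k) * v ^ k`.
-/

namespace Vale.Agent.P359

open Matrix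

noncomputable section

/-- Total spin of two particles. -/
def pairSpin (Q : ℕ) (α : Fin 3) : Matrix (Fin 2 → Fin (Q + 1)) (Fin 2 → Fin (Q + 1)) ℂ :=
  P361.siteOp 0 (P361.spin Q α) + P361.siteOp 1 (P361.spin Q α)

/-- The square of the total spin of two particles. -/
def casimir (Q : ℕ) : Matrix (Fin 2 → Fin (Q + 1)) (Fin 2 → Fin (Q + 1)) ℂ :=
  ∑ α : Fin 3, pairSpin Q α * pairSpin Q α

/-- The component of total spin `Q - 1`. -/
def topSpace (Q : ℕ) : Submodule ℂ (EuclideanSpace ℂ (Fin 2 → Fin (Q + 1))) :=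
  Module.End.eigenspace (Matrix.toEuclideanLin (casimir Q)) ((Q : ℂ) * ((Q : ℂ) - 1))

/-- The orthogonal projection onto that component. -/
def pairProj (Q : ℕ) : Matrix (Fin 2 → Fin (Q + 1)) (Fin 2 → Fin (Q + 1)) ℂ :=
  Matrix.toEuclideanLin.symm ((topSpace Q).starProjection : _ →ₗ[ℂ] _)

/-- A two particle operator acting on the particles `p` and `q`. -/
def pairOp {N d : ℕ} (p q : Fin N) (A : Matrix (Fin 2 → Fin d) (Fin 2 → Fin d) ℂ) :
    Matrix (Fin N → Fin d) (Fin N → Fin d) ℂ :=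
  fun σ τ => if ∀ i, i ≠ p → i ≠ q → σ i = τ i then A ![σ p, σ q] ![τ p, τ q] else 0

/-- The Hamiltonian: the sum of the projections over all pairs. -/
def hamiltonian (N Q : ℕ) : Matrix (Fin N → Fin (Q + 1)) (Fin N → Fin (Q + 1)) ℂ :=
  ∑ p : Fin N, ∑ q : Fin N, if p < q then pairOp p q (pairProj Q) else 0

/-- Antisymmetric states. -/
def Antisymm {N d : ℕ} (ψ : (Fin N → Fin d) → ℂ) : Prop :=
  ∀ (e : Equiv.Perm (Fin N)) σ, ψ (σ ∘ e) = ((Equiv.Perm.sign e : ℤ) : ℂ) * ψ σ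

/-- The polynomial `∏_{i<j} (v_j - v_i) ^ 3`, that is the Laughlin product at `u = 1`. -/
def laughlinPoly (N : ℕ) : MvPolynomial (Fin N) ℂ :=
  ∏ i : Fin N, ∏ j ∈ Finset.Ioi i, (MvPolynomial.X j - MvPolynomial.X i) ^ 3

/-- The Laughlin vector in the orthonormal weight basis. -/
def laughlin (N Q : ℕ) (σ : Fin N → Fin (Q + 1)) : ℂ :=
  MvPolynomial.coeff (Finsupp.equivFunOnFinite.symm fun i => (σ i : ℕ)) (laughlinPoly N) /
    ∏ i : Fin N, ((Real.sqrt (Nat.choose Q (σ i : ℕ)) : ℝ) : ℂ)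

end

end Vale.Agent.P359
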