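import Vale.Agent.P359.Avg

/-!
# P359: the pair projection, characterised by its properties
-/

namespace Vale.Agent.P359

open Matrix

noncomputable section

/-- A matrix is the orthogonal projection onto total spin `Q - 1` of a pair: it is Hermitian and
idempotent, and its fixed vectors are those on which the Casimir takes the value `Q (Q - 1)`. -/
def IsPairProj (Q : ℕ) (P : Matrix (Fin 2 → Fin (Q + 1)) (Fin 2 → Fin (Q + 1)) ℂ) : Prop :=
  P.conjTranspose = P ∧ P * P = P ∧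
    ∀ v, P *ᵥ v = v ↔ casimir Q *ᵥ v = ((Q : ℂ) * ((Q : ℂ) - 1)) • v

/-- The sum of a pair operator over all pairs. -/
def pairHam (N Q : ℕ) (P : Matrix (Fin 2 → Fin (Q + 1)) (Fin 2 → Fin (Q + 1)) ℂ) :
    Matrix (Fin N → Fin (Q + 1)) (Fin N → Fin (Q + 1)) ℂ :=
  ∑ p : Fin N, ∑ q : Fin N, if p < q then pairOp p q P else 0

/-- The operator is at least `δ` times the projection onto the complement of `ψ`, on antisymmetric
states. -/
def GapAtLeast {N d : ℕ} (H : Matrix (Fin N → Fin d) (Fin N → Fin d) ℂ)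
    (ψ : (Fin N → Fin d) → ℂ) (δ : ℝ) : Prop :=
  ∀ φ : (Fin N → Fin d) → ℂ, Antisymm φ →
    δ * ((∑ σ, ‖φ σ‖ ^ 2) - ‖star ψ ⬝ᵥ φ‖ ^ 2 / ∑ σ, ‖ψ σ‖ ^ 2) ≤ (star φ ⬝ᵥ (H *ᵥ φ)).re

lemma isPairProj_pairProj (Q : ℕ) : IsPairProj Q (pairProj Q) :=
  ⟨isHermitian_pairProj, pairProj_sq, fun v =>
    ⟨fun h => by rw [← h]; exact proj_mem v, proj_fix⟩⟩

lemma IsPairProj.eq {Q : ℕ} {P : Matrix (Fin 2 → Fin (Q + 1)) (Fin 2 → Fin (Q + 1)) ℂ}
    (h : IsPairProj Q P) : P = pairProj Q := by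
  obtain ⟨h1, h2, h3⟩ := h
  have e1 : P * pairProj Q = pairProj Q := Matrix.ext_of_mulVec_single fun i => by
    rw [← mulVec_mulVec]
    exact (h3 _).2 (proj_mem _)
  have e2 : pairProj Q * P = P := Matrix.ext_of_mulVec_single fun i => by
    rw [← mulVec_mulVec]
    refine proj_fix ((h3 _).1 ?_)
    rw [mulVec_mulVec, h2]
  have e3 := congrArg conjTranspose e2
  rw [conjTranspose_mul, h1, isHermitian_pairProj.eq] at e3
  rw [← e3, e1]

lemma pairHam_pairProj (N Q : ℕ) : pairHam N Q (pairProj Q) = hamiltonian N Q := rfl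

end

end Vale.Agent.P359
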