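import Vale.Agent.P359.Proj
import Mathlib.Algebra.MvPolynomial.Rename
import Mathlib.Algebra.MvPolynomial.Degrees
import Mathlib.RingTheory.MvPolynomial.Homogeneous
import Mathlib.LinearAlgebra.Vandermonde
import Mathlib.Analysis.Complex.Order

/-!
# P359: the Laughlin vector is antisymmetric, nonzero, and killed by every pair projection
-/

namespace Vale.Agent.P359

open MvPolynomial Matrix

noncomputable section

variable {N Q d : ℕ}

/-- The two particle slice of a state. -/
def slice (p q : Fin N) (ψ : (Fin N → Fin d) → ℂ) (σ : Fin N → Fin d) (τ : Fin 2 → Fin d) : ℂ :=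
  ψ (Function.update (Function.update σ p (τ 0)) q (τ 1))

/-- The pairs of particles. -/
def pairs (N : ℕ) : Finset (Fin N × Fin N) := Finset.univ.filter fun x => x.1 < x.2

lemma laughlinPoly_eq : laughlinPoly N = ∏ x ∈ pairs N, (X x.2 - X x.1) ^ 3 := by
  rw [laughlinPoly, pairs, Finset.prod_filter, Fintype.prod_prod_type]
  refine Finset.prod_congr rfl fun i _ => ?_
  rw [← Finset.prod_filter]
  refine Finset.prod_congr ?_ fun _ _ => rfl
  ext j; simp

lemma laughlinPoly_det :
    laughlinPoly N = (Matrix.vandermonde fun i : Fin N => (X i : MvPolynomial (Fin N) ℂ)).det ^ 3 := by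
  rw [Matrix.det_vandermonde, laughlinPoly, ← Finset.prod_pow]
  exact Finset.prod_congr rfl fun i _ => (Finset.prod_pow _ _ _)

lemma rename_laughlinPoly (e : Equiv.Perm (Fin N)) :
    rename e (laughlinPoly N) = C (((Equiv.Perm.sign e : ℤ) : ℂ)) * laughlinPoly N := by
  have h : rename e (Matrix.vandermonde fun i : Fin N => (X i : MvPolynomial (Fin N) ℂ)).det
      = ((Equiv.Perm.sign e : ℤ) : MvPolynomial (Fin N) ℂ)
        * (Matrix.vandermonde fun i : Fin N => (X i : MvPolynomial (Fin N) ℂ)).det := by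
    rw [AlgHom.map_det, ← Matrix.det_permute]
    congr 1
    ext i j
    simp [AlgHom.mapMatrix_apply, Matrix.vandermonde_apply]
  rw [laughlinPoly_det, map_pow, h, mul_pow]
  congr 1
  rcases Int.units_eq_one_or (Equiv.Perm.sign e) with hs | hs <;> simp [hs] <;> ring

/-- The exponent of a configuration. -/
def expo (σ : Fin N → Fin (Q + 1)) : Fin N →₀ ℕ :=
  Finsupp.equivFunOnFinite.symm fun i => (σ i : ℕ)

lemma expo_apply (σ : Fin N → Fin (Q + 1)) (i : Fin N) : expo σ i = (σ i : ℕ) := rfl

/-- The product of the weights. -/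
def wtProd (σ : Fin N → Fin (Q + 1)) : ℂ := ∏ i : Fin N, ((wt Q (σ i : ℕ) : ℝ) : ℂ)

lemma wtProd_ne (σ : Fin N → Fin (Q + 1)) : wtProd σ ≠ 0 :=
  Finset.prod_ne_zero_iff.2 fun i _ => Complex.ofReal_ne_zero.2 (wt_pos (by omega)).ne'

lemma laughlin_eq (σ : Fin N → Fin (Q + 1)) :
    laughlin N Q σ = coeff (expo σ) (laughlinPoly N) / wtProd σ := rfl

theorem laughlin_antisymm : Antisymm (laughlin N Q) := by
  intro e σ
  have h1 : wtProd (σ ∘ e) = wtProd σ := Equiv.prod_comp e fun i => ((wt Q (σ i : ℕ) : ℝ) : ℂ)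
  have h2 : expo σ = Finsupp.mapDomain e (expo (σ ∘ e)) := by
    ext i
    rw [show (i : Fin N) = e (e.symm i) by simp, Finsupp.mapDomain_apply e.injective]
    simp [expo_apply]
  have h3 := coeff_rename_mapDomain (e : Fin N → Fin N) e.injective (laughlinPoly N) (expo (σ ∘ e))
  rw [← h2, rename_laughlinPoly, coeff_C_mul] at h3
  rw [laughlin_eq, laughlin_eq, h1, ← h3, mul_div_assoc]

/-- All configurations in the support have the same total weight. -/
theorem laughlin_weight : ∃ W : ℕ, ∀ σ : Fin N → Fin (Q + 1), laughlin N Q σ ≠ 0 →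
    ∑ i, (σ i : ℕ) = W := by
  refine ⟨∑ x ∈ pairs N, 3, fun σ hσ => ?_⟩
  have hh : (laughlinPoly N).IsHomogeneous (∑ x ∈ pairs N, 3) := by
    rw [laughlinPoly_eq]
    refine IsHomogeneous.prod _ _ _ fun x _ => ?_
    simpa using ((isHomogeneous_X ℂ x.2).sub (isHomogeneous_X ℂ x.1)).pow 3
  have hc : coeff (expo σ) (laughlinPoly N) ≠ 0 := fun e => hσ (by rw [laughlin_eq, e, zero_div])
  have := hh hc
  rw [← this]
  simp [Finsupp.weight_apply, Finsupp.sum_fintype, expo_apply]

lemma card_incident (S : Finset (Fin N × Fin N)) (hS : S ⊆ pairs N) (p : Fin N) :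
    (S.filter fun x => x.1 = p ∨ x.2 = p).card
      ≤ ((S.filter fun x => x.1 = p ∨ x.2 = p).image fun x => if x.1 = p then x.2 else x.1).card := by
  rw [Finset.card_image_of_injOn]
  intro x hx y hy hxy
  simp only [Finset.coe_filter, Set.mem_setOf_eq] at hx hy
  have ox := (Finset.mem_filter.1 (hS hx.1)).2
  have oy := (Finset.mem_filter.1 (hS hy.1)).2
  by_cases h1 : x.1 = p <;> by_cases h2 : y.1 = p <;> simp only [h1, h2, if_true, if_false] at hxy
  · exact Prod.ext (h1.trans h2.symm) hxy
  · rw [h1] at ox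
    have := hy.2.resolve_left h2
    rw [this, ← hxy] at oy
    exact absurd ox (not_lt.2 oy.le)
  · rw [h2] at oy
    have := hx.2.resolve_left h1
    rw [this, hxy] at ox
    exact absurd oy (not_lt.2 ox.le)
  · exact Prod.ext hxy ((hx.2.resolve_left h1).trans (hy.2.resolve_left h2).symm)

lemma degreeOf_prod_pairs (S : Finset (Fin N × Fin N)) (p : Fin N) :
    degreeOf p (∏ x ∈ S, (X x.2 - X x.1 : MvPolynomial (Fin N) ℂ) ^ 3)
      ≤ 3 * (S.filter fun x => x.1 = p ∨ x.2 = p).card := by
  refine (degreeOf_prod_le _ _ _).trans ?_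
  rw [Finset.card_filter, Finset.mul_sum]
  refine Finset.sum_le_sum fun x _ => ?_
  refine (degreeOf_pow_le _ _ _).trans (Nat.mul_le_mul_left 3 ?_)
  refine (degreeOf_sub_le _ _ _).trans ?_
  simp only [degreeOf_X]
  split_ifs <;> simp_all

lemma degreeOf_laughlin (p : Fin N) : degreeOf p (laughlinPoly N) ≤ 3 * (N - 1) := by
  rw [laughlinPoly_eq]
  refine (degreeOf_prod_pairs _ p).trans (Nat.mul_le_mul_left 3 ?_)
  refine (card_incident _ subset_rfl p).trans ?_
  refine (Finset.card_le_card (t := Finset.univ.erase p) fun y hy => ?_).trans (by simp)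
  obtain ⟨x, hx, rfl⟩ := Finset.mem_image.1 hy
  obtain ⟨hx1, hx2⟩ := Finset.mem_filter.1 hx
  have ox := (Finset.mem_filter.1 hx1).2
  rw [Finset.mem_erase]
  refine ⟨?_, Finset.mem_univ _⟩
  split_ifs with h
  · exact fun e => (h ▸ e ▸ ox).false
  · exact h

theorem laughlin_ne_zero (hQ : 3 * (N - 1) ≤ Q) : laughlin N Q ≠ 0 := by
  intro h
  have hne : laughlinPoly N ≠ 0 := by
    rw [laughlinPoly_eq, Finset.prod_ne_zero_iff]
    intro x hx
    refine pow_ne_zero 3 (sub_ne_zero.2 fun e => ?_)
    exact ((Finset.mem_filter.1 hx).2).ne' (X_injective e)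
  obtain ⟨m, hm⟩ := MvPolynomial.exists_coeff_ne_zero hne
  have hb : ∀ i, m i < Q + 1 := fun i => Nat.lt_succ_iff.2
    (((monomial_le_degreeOf i (mem_support_iff.2 hm)).trans (degreeOf_laughlin i)).trans hQ)
  have e : expo (fun i => (⟨m i, hb i⟩ : Fin (Q + 1))) = m := by ext i; simp [expo_apply]
  have := congrFun h fun i => (⟨m i, hb i⟩ : Fin (Q + 1))
  rw [laughlin_eq, e, Pi.zero_apply, div_eq_zero_iff] at this
  exact this.elim hm (wtProd_ne _)

section Kill

variable {p q : Fin N}

/-- The exponent with the particles `p`, `q` set to `k`, `l`. -/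
def expo2 (p q : Fin N) (σ : Fin N → Fin (Q + 1)) (k l : ℕ) : Fin N →₀ ℕ :=
  ((expo σ).erase p).erase q + Finsupp.single p k + Finsupp.single q l

lemma expo_update (hpq : p ≠ q) (σ : Fin N → Fin (Q + 1)) (k l : Fin (Q + 1)) :
    expo (Function.update (Function.update σ p k) q l) = expo2 p q σ k l := by
  ext i
  rw [expo_apply, expo2, Finsupp.add_apply, Finsupp.add_apply]
  by_cases hq : i = q
  · subst hq; simp [Finsupp.single_apply, hpq]
  by_cases hp : i = p
  · subst hp; simp [Finsupp.single_apply, hq, Ne.symm hq]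
  · simp [Finsupp.single_apply, hq, hp, Ne.symm hq, Ne.symm hp, expo_apply]

/-- The pairing of a coefficient function with the slice of a polynomial. -/
def pairing (p q : Fin N) (σ : Fin N → Fin (Q + 1)) (c : ℕ → ℕ → ℂ) :
    MvPolynomial (Fin N) ℂ →ₗ[ℂ] ℂ :=
  ∑ k ∈ Finset.range (Q + 1), ∑ l ∈ Finset.range (Q + 1),
    starRingEnd ℂ (c k l) • lcoeff ℂ (expo2 p q σ k l)

lemma pairing_monomial (hpq : p ≠ q) (σ : Fin N → Fin (Q + 1)) (c : ℕ → ℕ → ℂ) (r : ℂ)
    (m : Fin N →₀ ℕ) {a b : ℕ} (ha : m p + a ≤ Q) (hb : m q + b ≤ Q) :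
    pairing p q σ c (monomial (m + Finsupp.single p a + Finsupp.single q b) r)
      = if ((expo σ).erase p).erase q = (m.erase p).erase q then
          starRingEnd ℂ (c (m p + a) (m q + b)) * r else 0 := by
  have key : ∀ k l, m + Finsupp.single p a + Finsupp.single q b = expo2 p q σ k l ↔
      (((expo σ).erase p).erase q = (m.erase p).erase q ∧ k = m p + a ∧ l = m q + b) := by
    intro k l
    constructor
    · intro h
      refine ⟨?_, ?_, ?_⟩
      · ext i
        have hi := DFunLike.congr_fun h i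
        by_cases hq : i = q
        · subst hq; simp
        by_cases hp : i = p
        · subst hp; simp [hq]
        · simp [expo2, hq, hp, Ne.symm hq, Ne.symm hp] at hi ⊢
          exact hi.symm
      · simpa [expo2, hpq, Ne.symm hpq] using (DFunLike.congr_fun h p).symm
      · simpa [expo2, hpq, Ne.symm hpq] using (DFunLike.congr_fun h q).symm
    · rintro ⟨h, rfl, rfl⟩
      ext i
      rw [expo2, h]
      by_cases hq : i = q
      · subst hq; simp [hpq]
      by_cases hp : i = p
      · subst hp; simp [hq, Ne.symm hq]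
      · simp [hq, hp, Ne.symm hq, Ne.symm hp]
  simp only [pairing, LinearMap.coe_sum, Finset.sum_apply, LinearMap.smul_apply, lcoeff_apply,
    coeff_monomial, key, smul_eq_mul]
  by_cases hc : ((expo σ).erase p).erase q = (m.erase p).erase q
  · simp only [hc, true_and, if_true]
    rw [Finset.sum_eq_single (m p + a), Finset.sum_eq_single (m q + b)]
    · simp
    · intro l _ hl; simp [hl]
    · intro hl; exact absurd (Finset.mem_range.2 (by omega)) hl
    · intro k _ hk; exact Finset.sum_eq_zero fun l _ => by simp [hk]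
    · intro hk; exact absurd (Finset.mem_range.2 (by omega)) hk
  · simp [hc]

lemma cube_eq (m : Fin N →₀ ℕ) (r : ℂ) :
    monomial m r * (X q - X p) ^ 3
      = monomial (m + Finsupp.single p 0 + Finsupp.single q 3) r
        - (3 : ℂ) • monomial (m + Finsupp.single p 1 + Finsupp.single q 2) r
        + (3 : ℂ) • monomial (m + Finsupp.single p 2 + Finsupp.single q 1) r
        - monomial (m + Finsupp.single p 3 + Finsupp.single q 0) r := by
  have e : ∀ a b : ℕ, monomial (m + Finsupp.single p a + Finsupp.single q b) r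
      = monomial m r * (X p ^ a * X q ^ b) := fun a b => by
    rw [X_pow_eq_monomial, X_pow_eq_monomial, monomial_mul, monomial_mul, one_mul, mul_one, add_assoc]
  simp only [e, Algebra.smul_def, MvPolynomial.algebraMap_eq, map_ofNat, pow_zero]
  ring

theorem pairing_laughlin {n : ℕ} (hpq : p < q) (hn : 3 * (N - 1) ≤ n + 3) {c : ℕ → ℕ → ℂ}
    (hc : IsEigen (n + 3) (((n : ℝ) + 3) * ((n : ℝ) + 2)) c) (σ : Fin N → Fin (n + 3 + 1)) :
    pairing p q σ c (laughlinPoly N) = 0 := by
  have hmem : (p, q) ∈ pairs N := by simp [pairs, hpq]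
  set F := ∏ x ∈ (pairs N).erase (p, q), (X x.2 - X x.1 : MvPolynomial (Fin N) ℂ) ^ 3 with hF
  have hdeg : ∀ i, i = p ∨ i = q → degreeOf i F ≤ n := by
    intro i hi
    refine (degreeOf_prod_pairs _ i).trans ?_
    have h1 := card_incident _ (Finset.erase_subset (p, q) (pairs N)) i
    have h2 : (((pairs N).erase (p, q)).filter fun x => x.1 = i ∨ x.2 = i).image
        (fun x => if x.1 = i then x.2 else x.1) ⊆ (Finset.univ.erase p).erase q := by
      intro y hy
      obtain ⟨⟨u, v⟩, hx, rfl⟩ := Finset.mem_image.1 hy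
      obtain ⟨hx1, hx2⟩ := Finset.mem_filter.1 hx
      obtain ⟨hne, hx3⟩ := Finset.mem_erase.1 hx1
      have ox : u < v := (Finset.mem_filter.1 hx3).2
      simp only [Finset.mem_erase, Finset.mem_univ, and_true]
      simp only [ne_eq, Prod.mk.injEq, not_and] at hne hx2 ⊢
      have := hpq
      split_ifs with h <;> rcases hi with rfl | rfl <;> constructor <;> intro e <;> subst e <;>
        first
          | exact absurd rfl h
          | (rcases hx2 with rfl | rfl <;> first
              | exact (hne rfl rfl).elim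
              | exact absurd rfl h
              | exact lt_irrefl _ ox
              | exact absurd (ox.trans this) (lt_irrefl _)
              | exact absurd rfl this.ne)
          | exact (hne h rfl).elim
          | exact (lt_irrefl _ (h ▸ ox)).elim
    have h3 : ((Finset.univ.erase p).erase q : Finset (Fin N)).card = N - 2 := by
      rw [Finset.card_erase_of_mem (by simp [hpq.ne']), Finset.card_erase_of_mem (Finset.mem_univ _)]
      simp; omega
    have h4 := (h1.trans (Finset.card_le_card h2)).trans h3.le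
    omega
  rw [laughlinPoly_eq, ← Finset.mul_prod_erase _ _ hmem, ← hF, mul_comm, F.as_sum, Finset.sum_mul,
    map_sum]
  refine Finset.sum_eq_zero fun m hm => ?_
  have hp' := (monomial_le_degreeOf p hm).trans (hdeg p (Or.inl rfl))
  have hq' := (monomial_le_degreeOf q hm).trans (hdeg q (Or.inr rfl))
  rw [cube_eq, map_sub, map_add, map_sub, map_smul, map_smul,
    pairing_monomial hpq.ne σ c _ _ (by omega) (by omega),
    pairing_monomial hpq.ne σ c _ _ (by omega) (by omega),
    pairing_monomial hpq.ne σ c _ _ (by omega) (by omega),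
    pairing_monomial hpq.ne σ c _ _ (by omega) (by omega)]
  split_ifs
  · have h3 := congrArg (starRingEnd ℂ) (diff3_zero hc hp' hq')
    simp only [diff, map_sub, map_zero] at h3
    simp only [smul_eq_mul, add_zero]
    have e1 : m p + 1 + 1 + 1 = m p + 3 := by omega
    have e2 : m p + 1 + 1 = m p + 2 := by omega
    have e3 : m q + 1 + 1 + 1 = m q + 3 := by omega
    have e4 : m q + 1 + 1 = m q + 2 := by omega
    simp only [e1, e2, e3, e4] at h3
    linear_combination -(coeff m F) * h3
  · simp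

lemma wtProd_update (hpq : p ≠ q) (σ : Fin N → Fin (Q + 1)) (k l : Fin (Q + 1)) :
    wtProd (Function.update (Function.update σ p k) q l)
      = (∏ i ∈ (Finset.univ.erase q).erase p, ((wt Q (σ i : ℕ) : ℝ) : ℂ))
        * (((wt Q (k : ℕ) * wt Q (l : ℕ) : ℝ)) : ℂ) := by
  rw [wtProd, ← Finset.mul_prod_erase _ _ (Finset.mem_univ q),
    ← Finset.mul_prod_erase _ _ (Finset.mem_erase.2 ⟨hpq, Finset.mem_univ p⟩)]
  simp only [Function.update_self, Function.update_of_ne hpq]
  rw [Finset.prod_congr rfl fun i hi => by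
    simp only [Finset.mem_erase] at hi
    rw [Function.update_of_ne hi.2.1, Function.update_of_ne hi.1]]
  push_cast
  ring

lemma slice_pairing (hpq : p ≠ q) (σ : Fin N → Fin (Q + 1)) (v : (Fin 2 → Fin (Q + 1)) → ℂ) :
    star v ⬝ᵥ slice p q (laughlin N Q) σ
      = pairing p q σ (coef v) (laughlinPoly N)
        / ∏ i ∈ (Finset.univ.erase q).erase p, ((wt Q (σ i : ℕ) : ℝ) : ℂ) := by
  have e : ∀ k l : Fin (Q + 1), star (v ![k, l]) * slice p q (laughlin N Q) σ ![k, l]
      = starRingEnd ℂ (coef v k l) * coeff (expo2 p q σ k l) (laughlinPoly N)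
        / ∏ i ∈ (Finset.univ.erase q).erase p, ((wt Q (σ i : ℕ) : ℝ) : ℂ) := by
    intro k l
    have hw : (((wt Q (k : ℕ) * wt Q (l : ℕ) : ℝ)) : ℂ) ≠ 0 :=
      Complex.ofReal_ne_zero.2 (mul_pos (wt_pos (by omega)) (wt_pos (by omega))).ne'
    rw [coef_spec v, slice, Matrix.cons_val_zero, Matrix.cons_val_one, Matrix.cons_val_zero,
      laughlin_eq, expo_update hpq, wtProd_update hpq, Complex.star_def, map_mul,
      Complex.conj_ofReal, ← div_div]
    field_simp
  rw [dotProduct, ← (finTwoArrowEquiv (Fin (Q + 1))).symm.sum_comp, Fintype.sum_prod_type]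
  simp only [pairing, LinearMap.coe_sum, Finset.sum_apply, LinearMap.smul_apply, lcoeff_apply,
    smul_eq_mul, Finset.sum_div]
  rw [← Fin.sum_univ_eq_sum_range]
  refine Finset.sum_congr rfl fun k _ => ?_
  rw [← Fin.sum_univ_eq_sum_range]
  exact Finset.sum_congr rfl fun l _ => e k l

lemma kill_of_eq {n : ℕ} (hn : 3 * (N - 1) ≤ n + 3) (hpq : p < q)
    (σ : Fin N → Fin (n + 3 + 1)) :
    star (pairProj (n + 3) *ᵥ slice p q (laughlin N (n + 3)) σ)
      ⬝ᵥ slice p q (laughlin N (n + 3)) σ = 0 := by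
  obtain ⟨v, hv⟩ : ∃ v, v = pairProj (n + 3) *ᵥ slice p q (laughlin N (n + 3)) σ := ⟨_, rfl⟩
  rw [← hv, slice_pairing hpq.ne]
  have hc := coef_isEigen (φ := v) (by rw [hv]; exact proj_mem _)
  have e : ((n + 3 : ℕ) : ℝ) * (((n + 3 : ℕ) : ℝ) - 1) = ((n : ℝ) + 3) * ((n : ℝ) + 2) := by
    push_cast; ring
  rw [e] at hc
  rw [pairing_laughlin hpq hn hc σ, zero_div]

lemma proj_dot (s : (Fin 2 → Fin (Q + 1)) → ℂ) :
    star (pairProj Q *ᵥ s) ⬝ᵥ (pairProj Q *ᵥ s) = star (pairProj Q *ᵥ s) ⬝ᵥ s := by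
  have h : star (pairProj Q *ᵥ s) = star s ᵥ* pairProj Q := by
    rw [star_mulVec, ← star_eq_conjTranspose, pairProj_star]
  rw [h, ← dotProduct_mulVec, mulVec_mulVec, pairProj_sq, dotProduct_mulVec]

open scoped ComplexOrder in
/-- Every pair projection kills the Laughlin vector. -/
theorem kill (hQ : Q = 3 * (N - 1)) (hpq : p < q) (σ : Fin N → Fin (Q + 1)) :
    pairProj Q *ᵥ slice p q (laughlin N Q) σ = 0 := by
  obtain ⟨n, rfl⟩ : ∃ n, Q = n + 3 := ⟨Q - 3, by
    have : (p : ℕ) < q := hpq
    omega⟩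
  exact dotProduct_star_self_eq_zero.1 ((proj_dot _).trans (kill_of_eq hQ.ge hpq σ))

end Kill

end

end Vale.Agent.P359
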