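import Vale.Agent.P359.Casimir
import Vale.Agent.P361.SpinAlg
import Mathlib.Analysis.InnerProductSpace.Projection.FiniteDimensional
import Mathlib.Analysis.InnerProductSpace.Adjoint
import Mathlib.LinearAlgebra.Trace

/-!
# P359: the projection onto the top component of two spins

It kills symmetric vectors, has rank at most `2 Q - 1`, and its partial trace is a scalar.
-/

namespace Vale.Agent.P359

open Matrix P361

noncomputable section

variable {Q : ℕ}

/-- One site operators on a state. -/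
lemma siteOp_mulVec {V α : Type} [Fintype V] [DecidableEq V] [Fintype α] [DecidableEq α]
    (x : V) (A : Matrix α α ℂ) (ψ : (V → α) → ℂ) (σ : V → α) :
    (siteOp x A *ᵥ ψ) σ = ∑ b, A (σ x) b * ψ (Function.update σ x b) := by
  simp only [mulVec, dotProduct, siteOp, ite_mul, zero_mul]
  rw [← Finset.sum_filter]
  refine Finset.sum_bij' (fun τ _ => τ x) (fun b _ => Function.update σ x b)
    (fun _ _ => Finset.mem_univ _) (fun b _ => ?_) (fun τ hτ => ?_) (fun b _ => by simp)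
    (fun τ hτ => ?_)
  · simp only [Finset.mem_filter, Finset.mem_univ, true_and]
    intro y hy
    simp [Function.update_of_ne hy]
  · funext y
    simp only [Finset.mem_filter] at hτ
    by_cases hy : y = x
    · subst hy; simp
    · rw [Function.update_of_ne hy, hτ.2 y hy]
  · have : Function.update σ x (τ x) = τ := by
      funext y
      simp only [Finset.mem_filter] at hτ
      by_cases hy : y = x
      · subst hy; simp
      · rw [Function.update_of_ne hy, hτ.2 y hy]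
    rw [this]

/-- The raising operator of the pair. -/
def pairUp (Q : ℕ) : Op Q (Fin 2) := sP Q 0 + sP Q 1
/-- The lowering operator of the pair. -/
def pairDown (Q : ℕ) : Op Q (Fin 2) := sM Q 0 + sM Q 1
/-- The third component of the pair. -/
def pairZ (Q : ℕ) : Op Q (Fin 2) := sZ Q 0 + sZ Q 1

lemma pair_up_down : pairUp Q * pairDown Q - pairDown Q * pairUp Q = (2 : ℂ) • pairZ Q := by
  have h : ∀ x : Fin 2, sP Q x * sM Q x - sM Q x * sP Q x = (2 : ℂ) • sZ Q x := fun x => by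
    rw [sP, sM, sZ, siteOp_mul, siteOp_mul, ← siteOp_sub, comm_plus_minus, siteOp_smul]
  have c : sP Q (0 : Fin 2) * sM Q 1 = sM Q 1 * sP Q 0 := siteOp_comm (by decide) _ _
  have c' : sP Q (1 : Fin 2) * sM Q 0 = sM Q 0 * sP Q 1 := siteOp_comm (by decide) _ _
  simp only [pairUp, pairDown, pairZ, add_mul, mul_add, smul_add, ← h, c, c']
  abel

lemma pair_z_up : pairZ Q * pairUp Q = pairUp Q * pairZ Q + pairUp Q := by
  have h : ∀ x : Fin 2, sZ Q x * sP Q x = sP Q x * sZ Q x + sP Q x := fun x => by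
    rw [sP, sZ, siteOp_mul, siteOp_mul, ← siteOp_add]
    congr 1
    rw [← sub_eq_iff_eq_add']
    exact comm_z_plus Q
  have c : sZ Q (0 : Fin 2) * sP Q 1 = sP Q 1 * sZ Q 0 := siteOp_comm (by decide) _ _
  have c' : sZ Q (1 : Fin 2) * sP Q 0 = sP Q 0 * sZ Q 1 := siteOp_comm (by decide) _ _
  simp only [pairUp, pairZ, add_mul, mul_add, h, c, c']
  abel

lemma casimir_eq : casimir Q = pairZ Q * pairZ Q + (1 / 2 : ℂ) •
    (pairUp Q * pairDown Q + pairDown Q * pairUp Q) := by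
  have e0 : pairSpin Q 0 = (1 / 2 : ℂ) • (pairUp Q + pairDown Q) := by
    simp only [pairSpin, spin, pairUp, pairDown, sP, sM, Matrix.cons_val_zero, siteOp_smul,
      siteOp_add, Matrix.star_eq_conjTranspose]
    module
  have e1 : pairSpin Q 1 = (-Complex.I / 2) • (pairUp Q - pairDown Q) := by
    simp only [pairSpin, spin, pairUp, pairDown, sP, sM, Matrix.cons_val_one, Matrix.cons_val_zero,
      siteOp_smul, siteOp_sub, Matrix.star_eq_conjTranspose]
    module
  have e2 : pairSpin Q 2 = pairZ Q := rfl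
  rw [casimir, Fin.sum_univ_three, e0, e1, e2, smul_mul_smul_comm, smul_mul_smul_comm,
    show -Complex.I / 2 * (-Complex.I / 2) = (-(1 / 4) : ℂ) by
      rw [div_mul_div_comm, neg_mul_neg, Complex.I_mul_I]; norm_num]
  simp only [add_mul, mul_add, sub_mul, mul_sub]
  module

lemma casimir_eq_up : casimir Q = pairZ Q * pairZ Q - pairZ Q + pairUp Q * pairDown Q := by
  have h : pairDown Q * pairUp Q = pairUp Q * pairDown Q - (2 : ℂ) • pairZ Q := by
    rw [← pair_up_down]; abel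
  rw [casimir_eq, h]
  module

lemma casimir_eq_down : casimir Q = pairZ Q * pairZ Q + pairZ Q + pairDown Q * pairUp Q := by
  have h : pairUp Q * pairDown Q = pairDown Q * pairUp Q + (2 : ℂ) • pairZ Q := by
    rw [← pair_up_down]; abel
  rw [casimir_eq, h]
  module

lemma casimir_up : casimir Q * pairUp Q = pairUp Q * casimir Q := by
  conv_lhs => rw [casimir_eq_up]
  conv_rhs => rw [casimir_eq_down]
  have h := pair_z_up (Q := Q)
  simp only [add_mul, sub_mul, mul_add, mul_assoc, h]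
  rw [← mul_assoc (pairZ Q) (pairUp Q), h]
  simp only [add_mul, mul_assoc, h]
  abel

lemma star_pairZ : star (pairZ Q) = pairZ Q := by rw [pairZ, star_add, star_sZ, star_sZ]

lemma star_pairUp : star (pairUp Q) = pairDown Q := by rw [pairUp, star_add, star_sP, star_sP]; rfl

lemma star_casimir : star (casimir Q) = casimir Q := by
  rw [casimir_eq_up, star_add, star_sub, star_mul, star_mul, star_pairZ, ← star_pairUp, star_star]

lemma casimir_down : casimir Q * pairDown Q = pairDown Q * casimir Q := by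
  have h := congrArg star (casimir_up (Q := Q))
  rw [star_mul, star_mul, star_pairUp, star_casimir] at h
  exact h.symm

lemma casimir_z : casimir Q * pairZ Q = pairZ Q * casimir Q := by
  have h2 : (2 : ℂ) • (casimir Q * pairZ Q) = (2 : ℂ) • (pairZ Q * casimir Q) := by
    rw [← mul_smul_comm, ← smul_mul_assoc, ← pair_up_down, mul_sub, sub_mul, ← mul_assoc,
      casimir_up, mul_assoc, casimir_down, ← mul_assoc, ← mul_assoc, casimir_down,
      mul_assoc (pairDown Q) (casimir Q), casimir_up, ← mul_assoc]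
  exact smul_right_injective _ (two_ne_zero (α := ℂ)) h2

/-- The weight of index `k`. -/
def wt (Q k : ℕ) : ℝ := √(Q.choose k)

lemma wt_pos {k : ℕ} (hk : k ≤ Q) : 0 < wt Q k := Real.sqrt_pos.2 (by exact_mod_cast Nat.choose_pos hk)

lemma wt_succ {k : ℕ} (hk : k < Q) :
    √(((k + 1 : ℕ) : ℝ) * ((Q : ℝ) + 1 - ((k + 1 : ℕ) : ℝ))) * wt Q (k + 1) = ((Q : ℝ) - k) * wt Q k := by
  have hk' : (k : ℝ) + 1 ≤ Q := by exact_mod_cast hk
  have h : ((Q.choose (k + 1) : ℕ) : ℝ) * ((k : ℝ) + 1) = (Q.choose k : ℕ) * ((Q : ℝ) - k) := by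
    have := congrArg (fun n : ℕ => (n : ℝ)) (Nat.choose_succ_right_eq Q k)
    push_cast [Nat.cast_sub hk.le] at this
    exact this
  rw [wt, wt, ← Real.sqrt_mul (mul_nonneg (by positivity) (by push_cast; linarith))]
  conv_rhs => rw [← Real.sqrt_sq (show (0 : ℝ) ≤ (Q : ℝ) - k by linarith),
    ← Real.sqrt_mul (sq_nonneg _)]
  congr 1
  push_cast
  linear_combination ((Q : ℝ) - k) * h

lemma wt_pred {k : ℕ} (hk : k < Q) :
    √(((k + 1 : ℕ) : ℝ) * ((Q : ℝ) + 1 - ((k + 1 : ℕ) : ℝ))) * wt Q k = ((k : ℝ) + 1) * wt Q (k + 1) := by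
  have h := wt_succ hk
  have hk' : (k : ℝ) + 1 ≤ Q := by exact_mod_cast hk
  set r := √(((k + 1 : ℕ) : ℝ) * ((Q : ℝ) + 1 - ((k + 1 : ℕ) : ℝ)))
  have hr : r * r = ((k : ℝ) + 1) * ((Q : ℝ) - k) := by
    rw [Real.mul_self_sqrt (mul_nonneg (by positivity) (by push_cast; linarith))]
    push_cast; ring
  refine mul_left_cancel₀ (show ((Q : ℝ) - k) ≠ 0 by linarith) ?_
  linear_combination (wt Q (k + 1)) * hr - r * h

/-- The coefficients of a two particle vector. -/
def coef (φ : (Fin 2 → Fin (Q + 1)) → ℂ) (k l : ℕ) : ℂ :=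
  if h : k ≤ Q ∧ l ≤ Q then
    φ ![⟨k, by omega⟩, ⟨l, by omega⟩] / (((wt Q k * wt Q l : ℝ)) : ℂ) else 0

lemma coef_spec (φ : (Fin 2 → Fin (Q + 1)) → ℂ) (k l : Fin (Q + 1)) :
    φ ![k, l] = (((wt Q k * wt Q l : ℝ)) : ℂ) * coef φ k l := by
  have hne : (((wt Q k * wt Q l : ℝ)) : ℂ) ≠ 0 := by
    exact_mod_cast (mul_pos (wt_pos (by omega)) (wt_pos (by omega))).ne'
  rw [coef, dif_pos ⟨by omega, by omega⟩, mul_div_cancel₀ _ hne]

lemma upd0 {α : Type} (k l b : α) : Function.update ![k, l] 0 b = ![b, l] := by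
  funext i; fin_cases i <;> simp [Function.update]

lemma upd1 {α : Type} (k l b : α) : Function.update ![k, l] 1 b = ![k, b] := by
  funext i; fin_cases i <;> simp [Function.update]

lemma sum_splus (k : Fin (Q + 1)) (g : Fin (Q + 1) → ℂ) :
    ∑ b, splus Q k b * g b = if h : (k : ℕ) < Q then
      ((√(((k + 1 : ℕ) : ℝ) * ((Q : ℝ) + 1 - ((k + 1 : ℕ) : ℝ))) : ℝ) : ℂ) * g ⟨k + 1, by omega⟩
      else 0 := by
  split_ifs with h
  · rw [Finset.sum_eq_single ⟨(k : ℕ) + 1, by omega⟩]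
    · simp [splus]
    · intro b _ hb
      rw [splus, if_neg, zero_mul]
      exact fun e => hb (Fin.ext e.symm)
    · simp
  · refine Finset.sum_eq_zero fun b _ => ?_
    rw [splus, if_neg (by omega), zero_mul]

lemma sum_sminus (l : Fin (Q + 1)) (g : Fin (Q + 1) → ℂ) :
    ∑ b, (star (splus Q)) l b * g b = if h : 0 < (l : ℕ) then
      ((√(((l : ℕ) : ℝ) * ((Q : ℝ) + 1 - ((l : ℕ) : ℝ))) : ℝ) : ℂ) * g ⟨l - 1, by omega⟩
      else 0 := by
  rw [splus_star_eq]
  split_ifs with h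
  · rw [Finset.sum_eq_single ⟨(l : ℕ) - 1, by omega⟩]
    · rw [Matrix.of_apply, if_pos (by simp only; omega)]
    · intro b _ hb
      rw [Matrix.of_apply, if_neg, zero_mul]
      exact fun e => hb (Fin.ext (by simp only; omega))
    · simp
  · refine Finset.sum_eq_zero fun b _ => ?_
    rw [Matrix.of_apply, if_neg (by omega), zero_mul]

/-- The Casimir on coefficients is `cop`. -/
theorem casimir_mulVec (φ : (Fin 2 → Fin (Q + 1)) → ℂ) (k l : Fin (Q + 1)) :
    (casimir Q *ᵥ φ) ![k, l] = (((wt Q k * wt Q l : ℝ)) : ℂ) * cop Q (coef φ) k l := by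
  have hz : pairZ Q = diagonal fun σ : Fin 2 → Fin (Q + 1) =>
      ((Q : ℂ) - (σ 0 : ℕ) - (σ 1 : ℕ)) := by
    rw [pairZ, sZ, sZ, spin_two, siteOp_diagonal, siteOp_diagonal, diagonal_add]
    congr 1; funext σ; ring
  have h : casimir Q = pairZ Q * pairZ Q - pairZ Q + sP Q 0 * sM Q 0 + sP Q 1 * sM Q 1
      + sP Q 0 * sM Q 1 + sP Q 1 * sM Q 0 := by
    rw [casimir_eq_up, pairUp, pairDown, add_mul, mul_add, mul_add]
    abel
  rw [h, hz, diagonal_mul_diagonal, sP_mul_sM_eq_diag, sP_mul_sM_eq_diag, diagonal_sub,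
    diagonal_add, diagonal_add]
  simp only [add_mulVec, ← mulVec_mulVec, Pi.add_apply, mulVec_diagonal]
  simp only [sP, sM, siteOp_mulVec, upd0, upd1, Matrix.cons_val_zero, Matrix.cons_val_one]
  simp only [sum_splus, sum_sminus, cop]
  have e1 : (if h : (k : ℕ) < Q then ((√(((k + 1 : ℕ) : ℝ) * ((Q : ℝ) + 1 - ((k + 1 : ℕ) : ℝ))) : ℝ) : ℂ) *
      (if h' : 0 < (l : ℕ) then ((√(((l : ℕ) : ℝ) * ((Q : ℝ) + 1 - ((l : ℕ) : ℝ))) : ℝ) : ℂ) *
        φ ![⟨k + 1, by omega⟩, ⟨l - 1, by omega⟩] else 0) else 0) =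
      (((wt Q k * wt Q l : ℝ)) : ℂ) * ((((Q : ℝ) - (k : ℕ)) * (l : ℕ) : ℝ) : ℂ) *
        coef φ (k + 1) (l - 1) := by
    by_cases hk : (k : ℕ) < Q
    swap
    · rw [dif_neg hk, show (k : ℕ) = Q by omega]; simp
    rw [dif_pos hk]
    rcases Nat.eq_zero_or_pos (l : ℕ) with hl | hl
    · rw [dif_neg (by omega), hl]; simp
    obtain ⟨m, hm⟩ : ∃ m, (l : ℕ) = m + 1 := ⟨(l : ℕ) - 1, by omega⟩
    rw [dif_pos hl, coef_spec φ]
    have w1 := wt_succ hk
    have w2 := wt_pred (Q := Q) (k := m) (by omega)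
    simp only [hm, add_tsub_cancel_right]
    rw [← mul_assoc, ← mul_assoc]
    congr 1
    norm_cast
    push_cast at w1 w2 ⊢
    linear_combination (√(((m : ℝ) + 1) * ((Q : ℝ) + 1 - ((m : ℝ) + 1))) * wt Q m) * w1 +
      (((Q : ℝ) - (k : ℕ)) * wt Q k) * w2
  have e2 : (if h : (l : ℕ) < Q then ((√(((l + 1 : ℕ) : ℝ) * ((Q : ℝ) + 1 - ((l + 1 : ℕ) : ℝ))) : ℝ) : ℂ) *
      (if h' : 0 < (k : ℕ) then ((√(((k : ℕ) : ℝ) * ((Q : ℝ) + 1 - ((k : ℕ) : ℝ))) : ℝ) : ℂ) *
        φ ![⟨k - 1, by omega⟩, ⟨l + 1, by omega⟩] else 0) else 0) =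
      (((wt Q k * wt Q l : ℝ)) : ℂ) * ((((k : ℕ) : ℝ) * ((Q : ℝ) - (l : ℕ)) : ℝ) : ℂ) *
        coef φ (k - 1) (l + 1) := by
    by_cases hk : (l : ℕ) < Q
    swap
    · rw [dif_neg hk, show (l : ℕ) = Q by omega]; simp
    rw [dif_pos hk]
    rcases Nat.eq_zero_or_pos (k : ℕ) with hl | hl
    · rw [dif_neg (by omega), hl]; simp
    obtain ⟨m, hm⟩ : ∃ m, (k : ℕ) = m + 1 := ⟨(k : ℕ) - 1, by omega⟩
    rw [dif_pos hl, coef_spec φ]
    have w1 := wt_succ hk
    have w2 := wt_pred (Q := Q) (k := m) (by omega)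
    simp only [hm, add_tsub_cancel_right]
    rw [← mul_assoc, ← mul_assoc]
    congr 1
    norm_cast
    push_cast at w1 w2 ⊢
    linear_combination (√(((m : ℝ) + 1) * ((Q : ℝ) + 1 - ((m : ℝ) + 1))) * wt Q m) * w1 +
      (((Q : ℝ) - (l : ℕ)) * wt Q l) * w2
  rw [e1, e2, coef_spec φ k l]
  push_cast
  ring

end

end Vale.Agent.P359
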