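import Vale.Agent.P359.Pair

/-!
# P359: properties of the projection onto the top component
-/

namespace Vale.Agent.P359

open Matrix P361 WithLp

noncomputable section

variable {Q : ℕ}

lemma mem_topSpace {x : EuclideanSpace ℂ (Fin 2 → Fin (Q + 1))} :
    x ∈ topSpace Q ↔ casimir Q *ᵥ x.ofLp = ((Q : ℂ) * ((Q : ℂ) - 1)) • x.ofLp := by
  rw [topSpace, Module.End.mem_eigenspace_iff]
  constructor
  · intro h
    simpa [Matrix.toEuclideanLin_apply] using congrArg ofLp h
  · intro h
    exact (WithLp.ofLp_injective 2) (by simpa [Matrix.toEuclideanLin_apply] using h)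

lemma pairProj_mulVec (x : (Fin 2 → Fin (Q + 1)) → ℂ) :
    pairProj Q *ᵥ x = ((topSpace Q).starProjection (toLp 2 x)).ofLp := by
  have h : Matrix.toEuclideanLin (pairProj Q) = ((topSpace Q).starProjection : _ →ₗ[ℂ] _) :=
    LinearEquiv.apply_symm_apply _ _
  have h2 := congrArg (fun T => (T (toLp 2 x)).ofLp) h
  simpa [Matrix.toEuclideanLin_apply] using h2

lemma proj_mem (x : (Fin 2 → Fin (Q + 1)) → ℂ) :
    casimir Q *ᵥ (pairProj Q *ᵥ x) = ((Q : ℂ) * ((Q : ℂ) - 1)) • (pairProj Q *ᵥ x) := by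
  rw [pairProj_mulVec]
  exact mem_topSpace.1 ((topSpace Q).starProjection_apply_mem _)

lemma proj_fix {x : (Fin 2 → Fin (Q + 1)) → ℂ}
    (h : casimir Q *ᵥ x = ((Q : ℂ) * ((Q : ℂ) - 1)) • x) : pairProj Q *ᵥ x = x := by
  rw [pairProj_mulVec, Submodule.starProjection_eq_self_iff.2 (mem_topSpace.2 h)]

lemma isHermitian_pairProj : (pairProj Q).IsHermitian := by
  rw [Matrix.isHermitian_iff_isSymmetric, pairProj, LinearEquiv.apply_symm_apply]
  exact (topSpace Q).starProjection_isSymmetric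

lemma pairProj_star : star (pairProj Q) = pairProj Q := isHermitian_pairProj

lemma pairProj_sq : pairProj Q * pairProj Q = pairProj Q :=
  Matrix.ext_of_mulVec_single fun i => by rw [← mulVec_mulVec]; exact proj_fix (proj_mem _)

/-- The projection commutes with an operator which, with its adjoint, commutes with the Casimir. -/
lemma pairProj_comm {A : Op Q (Fin 2)} (h : casimir Q * A = A * casimir Q)
    (h' : casimir Q * star A = star A * casimir Q) : pairProj Q * A = A * pairProj Q := by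
  have inv : ∀ B : Op Q (Fin 2), casimir Q * B = B * casimir Q →
      pairProj Q * B * pairProj Q = B * pairProj Q := fun B hB =>
    Matrix.ext_of_mulVec_single fun i => by
      rw [← mulVec_mulVec, ← mulVec_mulVec, ← mulVec_mulVec]
      refine proj_fix ?_
      rw [mulVec_mulVec, hB, ← mulVec_mulVec, proj_mem, mulVec_smul]
  have h2 := congrArg star (inv _ h')
  rw [star_mul, star_mul, star_mul, star_star, pairProj_star] at h2
  rw [← h2, ← mul_assoc]
  exact inv A h

lemma coef_isEigen {φ : (Fin 2 → Fin (Q + 1)) → ℂ}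
    (h : casimir Q *ᵥ φ = ((Q : ℂ) * ((Q : ℂ) - 1)) • φ) :
    IsEigen Q ((Q : ℝ) * ((Q : ℝ) - 1)) (coef φ) := by
  intro k l hk hl
  have h1 := congrFun h ![⟨k, by omega⟩, ⟨l, by omega⟩]
  rw [casimir_mulVec, Pi.smul_apply, coef_spec φ, smul_eq_mul] at h1
  have hne : (((wt Q k * wt Q l : ℝ)) : ℂ) ≠ 0 := by
    exact_mod_cast (mul_pos (wt_pos hk) (wt_pos hl)).ne'
  refine mul_left_cancel₀ hne ?_
  rw [h1]
  push_cast
  ring

/-- The top component consists of antisymmetric vectors. -/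
lemma top_antisymm (hQ : 2 ≤ Q) {φ : (Fin 2 → Fin (Q + 1)) → ℂ}
    (h : casimir Q *ᵥ φ = ((Q : ℂ) * ((Q : ℂ) - 1)) • φ) (k l : Fin (Q + 1)) :
    φ ![l, k] = -φ ![k, l] := by
  have hc := coef_isEigen h
  have hs : IsEigen Q ((Q : ℝ) * ((Q : ℝ) - 1)) fun a b => coef φ a b + coef φ b a := by
    intro a b ha hb
    have h1 := hc a b ha hb
    have h2 := hc b a hb ha
    simp only [cop] at h1 h2 ⊢
    push_cast at h1 h2 ⊢
    linear_combination h1 + h2
  have h0 := zero_of_symm hQ hs (fun a b => add_comm _ _) (k := (k : ℕ)) (l := (l : ℕ))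
    (by omega) (by omega)
  rw [coef_spec φ, coef_spec φ, mul_comm (wt Q (l : ℕ))]
  linear_combination (((wt Q k * wt Q l : ℝ)) : ℂ) * h0

lemma pairProj_swap (hQ : 2 ≤ Q) (k l : Fin (Q + 1)) (τ : Fin 2 → Fin (Q + 1)) :
    pairProj Q ![l, k] τ = -pairProj Q ![k, l] τ := by
  have := top_antisymm hQ (proj_mem (Q := Q) (Pi.single τ 1)) k l
  simpa using this

/-- Value of the representatives as a linear map. -/
def repsMap (Q : ℕ) : topSpace Q →ₗ[ℂ] (Fin (2 * Q - 1) → ℂ) where
  toFun x := reps Q (coef x.1.ofLp)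
  map_add' x y := by
    funext m
    simp only [reps, diff, coef, Submodule.coe_add, WithLp.ofLp_add, Pi.add_apply]
    split_ifs <;> ring
  map_smul' r x := by
    funext m
    simp only [reps, diff, coef, Submodule.coe_smul, WithLp.ofLp_smul, Pi.smul_apply, smul_eq_mul,
      RingHom.id_apply]
    split_ifs <;> ring

lemma finrank_topSpace (hQ : 2 ≤ Q) : Module.finrank ℂ (topSpace Q) ≤ 2 * Q - 1 := by
  have hinj : Function.Injective (repsMap Q) := by
    refine (injective_iff_map_eq_zero _).2 fun x hx => ?_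
    refine Subtype.ext (WithLp.ofLp_injective 2 (funext fun σ => ?_))
    have h0 := zero_of_reps hQ (coef_isEigen (mem_topSpace.1 x.2)) hx (k := (σ 0 : ℕ)) (l := (σ 1 : ℕ))
      (by omega) (by omega)
    have e : σ = ![σ 0, σ 1] := by funext i; fin_cases i <;> rfl
    rw [e, coef_spec x.1.ofLp, h0, mul_zero]
    rfl
  simpa using LinearMap.finrank_le_finrank_of_injective hinj

lemma trace_pairProj : (pairProj Q).trace = (Module.finrank ℂ (topSpace Q) : ℂ) := by
  have h : LinearMap.IsProj (topSpace Q) ((topSpace Q).starProjection : _ →ₗ[ℂ] _) :=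
    ⟨fun x => (topSpace Q).starProjection_apply_mem x,
      fun x hx => Submodule.starProjection_eq_self_iff.2 hx⟩
  rw [← h.trace]
  rw [LinearMap.trace_eq_matrix_trace ℂ (EuclideanSpace.basisFun (Fin 2 → Fin (Q + 1)) ℂ).toBasis]
  congr 1

/-- The partial trace over the first particle. -/
def ptrace (Q : ℕ) : Matrix (Fin (Q + 1)) (Fin (Q + 1)) ℂ :=
  fun k l => ∑ a, pairProj Q ![a, k] ![a, l]

lemma ptrace_commute {T : Matrix (Fin (Q + 1)) (Fin (Q + 1)) ℂ}
    (h : pairProj Q * (siteOp 0 T + siteOp 1 T) = (siteOp 0 T + siteOp 1 T) * pairProj Q) :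
    ptrace Q * T = T * ptrace Q := by
  have hr : ∀ (A : Matrix (Fin (Q + 1)) (Fin (Q + 1)) ℂ) (x : Fin 2) (σ τ : Fin 2 → Fin (Q + 1)),
      (siteOp x A * pairProj Q) σ τ = ∑ b, A (σ x) b * pairProj Q (Function.update σ x b) τ := by
    intro A x σ τ
    exact siteOp_mulVec x A (fun ρ => pairProj Q ρ τ) σ
  have hl : ∀ (A : Matrix (Fin (Q + 1)) (Fin (Q + 1)) ℂ) (x : Fin 2) (σ τ : Fin 2 → Fin (Q + 1)),
      (pairProj Q * siteOp x A) σ τ = ∑ b, pairProj Q σ (Function.update τ x b) * A b (τ x) := by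
    intro A x σ τ
    have := siteOp_mulVec x Aᵀ (fun ρ => pairProj Q σ ρ) τ
    simp only [Matrix.transpose_apply] at this
    rw [Finset.sum_congr rfl fun b _ => mul_comm _ _, ← this]
    simp only [Matrix.mul_apply, mulVec, dotProduct]
    refine Finset.sum_congr rfl fun ρ _ => ?_
    rw [← siteOp_transpose, Matrix.transpose_apply, mul_comm]
  ext k l
  have hs := Finset.sum_congr rfl fun a (_ : a ∈ (Finset.univ : Finset (Fin (Q + 1)))) =>
    congrFun (congrFun h ![a, k]) ![a, l]
  simp only [mul_add, add_mul, Matrix.add_apply, hr, hl, upd0, upd1, Matrix.cons_val_zero,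
    Matrix.cons_val_one, Finset.sum_add_distrib] at hs
  have e1 : ∑ a, ∑ b, pairProj Q ![a, k] ![b, l] * T b a
      = ∑ a, ∑ b, T a b * pairProj Q ![b, k] ![a, l] := by
    rw [Finset.sum_comm]
    simp only [mul_comm]
  rw [e1] at hs
  simp only [Matrix.mul_apply, ptrace, Finset.sum_mul, Finset.mul_sum]
  rw [Finset.sum_comm, add_left_cancel hs, Finset.sum_comm]

/-- The partial trace is a scalar. -/
theorem ptrace_eq (hQ : 2 ≤ Q) :
    ∃ κ : ℝ, 0 ≤ κ ∧ κ * ((Q : ℝ) + 1) ≤ 2 * (Q : ℝ) - 1 ∧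
      ∀ k l, ptrace Q k l = if k = l then (κ : ℂ) else 0 := by
  have hz : ptrace Q * spin Q 2 = spin Q 2 * ptrace Q := by
    refine ptrace_commute (pairProj_comm casimir_z ?_)
    show casimir Q * star (pairZ Q) = star (pairZ Q) * casimir Q
    rw [star_pairZ]; exact casimir_z
  have hp : ptrace Q * splus Q = splus Q * ptrace Q := by
    refine ptrace_commute (pairProj_comm casimir_up ?_)
    show casimir Q * star (pairUp Q) = star (pairUp Q) * casimir Q
    rw [star_pairUp]; exact casimir_down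
  have hoff : ∀ k l, k ≠ l → ptrace Q k l = 0 := fun k l hkl => by
    have := congrFun (congrFun hz k) l
    rw [spin_two, diagonal_mul, mul_diagonal] at this
    have h2 : (((k : ℕ) : ℂ) - (l : ℕ)) * ptrace Q k l = 0 := by linear_combination this
    refine (mul_eq_zero.1 h2).resolve_left (sub_ne_zero.2 fun e => hkl (Fin.ext ?_))
    exact_mod_cast e
  have hstep : ∀ k : ℕ, ∀ hk : k < Q,
      ptrace Q ⟨k + 1, by omega⟩ ⟨k + 1, by omega⟩ = ptrace Q ⟨k, by omega⟩ ⟨k, by omega⟩ := by
    intro k hk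
    have := congrFun (congrFun hp ⟨k, by omega⟩) ⟨k + 1, by omega⟩
    rw [Matrix.mul_apply, Matrix.mul_apply, Finset.sum_eq_single ⟨k, by omega⟩,
      Finset.sum_eq_single ⟨k + 1, by omega⟩] at this
    · rw [mul_comm] at this
      have hne : splus Q ⟨k, by omega⟩ ⟨k + 1, by omega⟩ ≠ 0 := by
        have hk' : (k : ℝ) + 1 ≤ Q := by exact_mod_cast hk
        rw [splus, if_pos rfl, Complex.ofReal_ne_zero, Real.sqrt_ne_zero']
        refine mul_pos (by positivity) ?_
        push_cast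
        linarith
      exact (mul_left_cancel₀ hne this).symm
    · intro b _ hb; rw [hoff _ _ hb, mul_zero]
    · simp
    · intro b _ hb; rw [hoff _ _ (Ne.symm hb), zero_mul]
    · simp
  have hconst : ∀ k : Fin (Q + 1), ptrace Q k k = ptrace Q 0 0 := by
    rintro ⟨k, hk⟩
    induction k with
    | zero => rfl
    | succ k ih => rw [hstep k (by omega)]; exact ih (by omega)
  have hdiag : ∀ σ, pairProj Q σ σ = ((∑ τ, Complex.normSq (pairProj Q σ τ) : ℝ) : ℂ) := fun σ => by
    conv_lhs => rw [← pairProj_sq]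
    rw [Matrix.mul_apply, Complex.ofReal_sum]
    refine Finset.sum_congr rfl fun τ _ => ?_
    rw [← isHermitian_pairProj.apply τ σ, Complex.star_def, ← Complex.mul_conj]
  obtain ⟨κ, hκ0, hκ⟩ : ∃ κ : ℝ, 0 ≤ κ ∧ ptrace Q 0 0 = (κ : ℂ) :=
    ⟨∑ a : Fin (Q + 1), ∑ τ, Complex.normSq (pairProj Q ![a, 0] τ),
      Finset.sum_nonneg fun _ _ => Finset.sum_nonneg fun _ _ => Complex.normSq_nonneg _,
      by rw [ptrace, Complex.ofReal_sum]; exact Finset.sum_congr rfl fun a _ => hdiag _⟩
  refine ⟨κ, hκ0, ?_, fun k l => ?_⟩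
  · have ht : (ptrace Q).trace = (pairProj Q).trace := by
      simp only [Matrix.trace, Matrix.diag, ptrace]
      rw [Finset.sum_comm, ← (finTwoArrowEquiv (Fin (Q + 1))).symm.sum_comp, Fintype.sum_prod_type]
      refine Finset.sum_congr rfl fun a _ => Finset.sum_congr rfl fun k _ => ?_
      simp [finTwoArrowEquiv]
    have e : (ptrace Q).trace = ((κ * ((Q : ℝ) + 1) : ℝ) : ℂ) := by
      simp [Matrix.trace, Matrix.diag, hconst, hκ]
      ring
    rw [e, trace_pairProj] at ht
    have h1 : κ * ((Q : ℝ) + 1) = (Module.finrank ℂ (topSpace Q) : ℝ) := by exact_mod_cast ht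
    have h2 : ((Module.finrank ℂ (topSpace Q) : ℕ) : ℝ) ≤ ((2 * Q - 1 : ℕ) : ℝ) := by
      exact_mod_cast finrank_topSpace hQ
    rw [h1]
    push_cast [Nat.cast_sub (show 1 ≤ 2 * Q by omega)] at h2
    exact h2
  · split_ifs with h
    · subst h; rw [hconst, hκ]
    · exact hoff k l h

end

end Vale.Agent.P359
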